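import Crest.Agent.N250.El.Defs
import Crest.Agent.N250.B1.DrS
import Crest.Agent.N250.B1.Sm4
import Crest.Agent.N250.B1.Res2
import Crest.Agent.N250.Xi.Sc
import Crest.Agent.N250.Xi.Tip

/-!
# Row 250 (helper4): the end family and its readings; the hypotheses of the limit `X → ∞`
-/

set_option autoImplicit false
open Set Filter Topology Metric Complex

noncomputable section

namespace Crest.Agent.N250.Em

open B1
open Gi (hat)

variable {ℓ : Ell}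

/-- ONE family `U` of ends, with the drift property -/
structure Fm (U : Par ℓ → Jt ℓ) (R K ε ε1 C0 Ch c CD C c0 : ℝ) : Prop where
  isEnd : IsEnd R K (13 / 8) (7 / 4) ε ε1 C0 ℓ U
  sz : Sz R K (13 / 8) (7 / 4) ε1
  ε_pos : 0 < ε
  C0_nonneg : 0 ≤ C0
  sm : C0 * (3 / K + ε) ≤ ε1 / 4
  Ch_nonneg : 0 ≤ Ch
  c_pos : 0 < c
  c_le : c ≤ 1 / 10
  e1c : 3 * ε1 ≤ c
  CD_pos : 0 < CD
  C_pos : 0 < C
  c0_pos : 0 < c0
  hl : ∀ m : ℤ, c0 * |(m : ℝ)| ≤ ℓ.l m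
  drift : ∀ (X X' : ℝ) (a h' : ℂ) (b : Wi (omP 2)) (J' : Jt ℓ), 2 * R + 4 ≤ X → 2 * √K ≤ X →
    X ≤ X' → Adm K X' a → ‖a‖ * X ^ 2 ≤ c → ‖h'‖ ≤ Ch / (X' ^ 3 * ‖et a X'‖) →
    Sol R ((X' : ℂ), a, wd b h') J' → InB R K (13 / 8) (7 / 4) X' a ε1 J' →
    ‖hat X (tauX R X X' a J') - hat X' a‖ ≤ CD * (1 / (X ^ 6 * (et a X').re) + 1 / X ^ 5) ∧
    ∀ (h : ℂ) (J : Jt ℓ), ‖h‖ ≤ 2 * Ch / X ^ 3 → Sol R ((X : ℂ), tauX R X X' a J', wd b h) J →
      InB R K (13 / 8) (7 / 4) X (tauX R X X' a J') ε1 J →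
      Xc R X X' (vJ R X' a J') (vJ R X (tauX R X X' a J') J) (C * X ^ (-33 / 8 : ℝ))

/-- the symbol `c |m|` -/
def ellC (c : ℝ) (hc : 0 ≤ c) : Ell where
  l m := c * |(m : ℝ)|
  zero := by simp
  nonneg m := by positivity
  sub j k := by
    rw [← mul_add]; push_cast; exact mul_le_mul_of_nonneg_left (abs_add_le _ _) hc
  neg m := by simp

theorem ex_138 : Ex (13 / 8) (7 / 4) := by unfold Ex; norm_num

theorem exists_fm (hE : EndS) (hD : DriftS) {Ch e0 K0 : ℝ} (hCh : 0 ≤ Ch) (he : 0 < e0) :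
    ∃ R1 K ε ε1 C0 c CD : ℝ, ε1 ≤ e0 ∧ K0 ≤ K ∧ ∀ R, R1 ≤ R →
      ∃ (ℓ : Ell) (U : Par ℓ → Jt ℓ) (C c0 : ℝ), Fm U R K ε ε1 C0 Ch c CD C c0 := by
  obtain ⟨R1, K1, c0, e1, c1, CD, hc0, he1, hc1, hCD, hd⟩ := hD Ch hCh
  set c := min c1 (1 / 10) with hc
  have hcp : 0 < c := lt_min hc1 (by norm_num)
  obtain ⟨R2, K2, c2, ε, ε1, C0, hR2, hK2, hc2, hε, hC0, h1, h2, h3⟩ := hE _ _ ex_138
    (min (min e0 e1) (min (c / 3) (1 / 36))) (by positivity)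
  set K := max (max K0 K1) (max K2 32) with hK
  have hK2' : K2 ≤ K := (le_max_left _ _).trans (le_max_right _ _)
  refine ⟨max (max R1 R2) 2, K, ε, ε1, C0, c, CD,
    h1.trans ((min_le_left _ _).trans (min_le_left _ _)),
    (le_max_left _ _).trans (le_max_left _ _), fun R hR => ?_⟩
  have hR0 : 2 ≤ R := (le_max_right _ _).trans hR
  have hm : 0 < min c0 c2 / R := by positivity
  have hs : ∀ d, min c0 c2 ≤ d → (ellC _ hm.le).Sm d R := fun d hd m => by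
    change min c0 c2 / R * |(m : ℝ)| ≤ _
    rw [div_mul_eq_mul_div]; gcongr
  obtain ⟨U, hU⟩ := h3 R K (((le_max_right _ _).trans (le_max_left _ _)).trans hR) hK2' _
    (hs _ (min_le_right _ _))
  obtain ⟨C, hC, hd⟩ := hd (ellC _ hm.le) R _ (((le_max_left _ _).trans (le_max_left _ _)).trans hR)
    (hs _ (min_le_left _ _)) hm fun _ => le_rfl
  have he1' : ε1 ≤ e1 := h1.trans ((min_le_left _ _).trans (min_le_right _ _))
  refine ⟨_, U, C, _, hU, ⟨ex_138, hR0, (le_max_right _ _).trans (le_max_right _ _),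
    h1.trans ((min_le_right _ _).trans (min_le_right _ _))⟩, hε, hC0.le, le_trans ?_ h2, hCh, hcp,
    min_le_right _ _, by linarith [h1.trans ((min_le_right _ _).trans (min_le_left _ _))], hCD, hC, hm,
    fun _ => le_rfl, fun X X' a h' b J' a1 a2 a3 a4 a5 a6 a7 a8 => ?_⟩
  · have : 3 / K ≤ 3 / K2 := div_le_div_of_nonneg_left (by norm_num) (by linarith) hK2'
    gcongr
  · obtain ⟨k1, -, k3⟩ := hd K X X' a h' b J' ((le_max_right _ _).trans (le_max_left _ _)) a1 a2 a3 a4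
      (a5.trans (min_le_left _ _)) a6 a7 (Cj.inB_mono a8 he1')
    exact ⟨k1, fun h J b1 b2 b3 => k3 h J b1 b2 (Cj.inB_mono b3 he1')⟩

theorem adm_mono {K K' X : ℝ} {a : ℂ} (h : Adm K' X a) (hK : K ≤ K') : Adm K X a := by
  unfold Adm at h ⊢
  have : 2 * K / X ^ 2 ≤ 2 * K' / X ^ 2 := by gcongr
  linarith

theorem dn_wd (R g g' X : ℝ) (a h : ℂ) (b : Wi (omP 2)) :
    dn R g g' X a (wd (ℓ := ℓ) b h) = R ^ g * ‖b‖ + X * ‖h‖ := by
  simp [dn, wd]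

theorem differentiable_wd : Differentiable ℂ fun p : Wi (omP 2) × ℂ => wd (ℓ := ℓ) p.1 p.2 := by
  have e : ∀ h : ℂ, Wi.single (omF ℓ) 0 h = h • Wi.single (omF ℓ) 0 1 := fun h =>
    Wi.ext fun m => by
      rw [Wi.co_smul, Wi.co_single, Wi.co_single]; split_ifs <;> simp
  have e' : (fun p : Wi (omP 2) × ℂ => wd (ℓ := ℓ) p.1 p.2) =
      fun p => (p.1, p.2 • Wi.single (omF ℓ) 0 1, 0, 0) := funext fun p => by rw [wd, e]
  rw [e']
  fun_prop

namespace Fm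

variable {U : Par ℓ → Jt ℓ} {R K ε ε1 C0 Ch c CD C c0 : ℝ} (F : Fm U R K ε ε1 C0 Ch c CD C c0)
include F

theorem K_pos : 0 < K := by linarith [F.sz.hK]

theorem ε1_nonneg : 0 ≤ ε1 := by
  have := F.sm
  have h : 0 ≤ C0 * (3 / K + ε) := by
    have := F.K_pos; have := F.ε_pos; have := F.C0_nonneg; positivity
  linarith

theorem sm' : C0 * (3 / K + ε) ≤ ε1 := by linarith [F.sm, F.ε1_nonneg]

theorem sl {z : Par ℓ} (hz : z ∈ Dom R K (13 / 8) (7 / 4) ε) :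
    Sl R K (13 / 8) (7 / 4) ε ε1 z (U z) := F.isEnd.sl F.K_pos F.C0_nonneg F.sm' hz

/-- the far parameter moves little under restriction -/
theorem tau_sub {X X' : ℝ} {a : ℂ} {D : Dat ℓ} (hz : ((X' : ℂ), a, D) ∈ Dom R K (13 / 8) (7 / 4) ε)
    (h1 : 2 * R + 4 ≤ X) (h2 : X ≤ X') :
    ‖tauX R X X' a (U ((X' : ℂ), a, D)) - a‖ ≤ c / X ^ 2 := by
  have S := F.sl hz
  have hR := F.sz.hR
  have hX' : R + 2 ≤ X' := by linarith
  obtain ⟨s, hs⟩ := exists_xr hX' (x := X) ⟨by linarith, h2⟩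
  have hp := fun s => S.pt F.sz s
  have hb := S.inb.b0
  simp only [ofReal_re] at hp hb
  have h3 := hb.zero_le (fun s => (hp s).rho_pos) (fun s => (hp s).W_pos _ _) s
  have h4 := (hp s).rho_le_one
  have h5 : ‖mo R X' (U ((X' : ℂ), a, D)) 0 0 X‖ ≤ ε1 := by
    rw [mo, ← hs, fx_xr hX']
    nlinarith [F.ε1_nonneg]
  have e : ((X : ℂ) ^ 2 - 2) / 2 = (((X ^ 2 - 2) / 2 : ℝ) : ℂ) := by push_cast; ring
  have h6 : 64 ≤ X ^ 2 := by nlinarith
  rw [tauX, add_sub_cancel_left, e, norm_div, norm_real, Real.norm_of_nonneg (by linarith),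
    div_le_div_iff₀ (by linarith) (by linarith)]
  nlinarith [F.e1c, F.ε1_nonneg]

end Fm

variable {W : Type*} [NormedAddCommGroup W] [NormedSpace ℂ W]

/-- a reading of the family: holomorphic, bounded, Hölder for the weak closeness at large cuts -/
structure Rdg (U : Par ℓ → Jt ℓ) (R K ε : ℝ) (E : Par ℓ → W) (X0 M A : ℝ) : Prop where
  hol : DifferentiableOn ℂ E (Dom R K (13 / 8) (7 / 4) ε ∩ {z | X0 < z.1.re})
  bd : ∀ z ∈ Dom R K (13 / 8) (7 / 4) ε, X0 < z.1.re → ‖E z‖ ≤ M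
  A_nonneg : 0 ≤ A
  lip : ∀ (X X' : ℝ) (a a' : ℂ) (D D' : Dat ℓ) (N : ℝ), X0 < X → X ≤ X' → 0 < N → N ≤ 1 →
    ((X : ℂ), a, D) ∈ Dom R K (13 / 8) (7 / 4) ε → ((X' : ℂ), a', D') ∈ Dom R K (13 / 8) (7 / 4) ε →
    Xc R X X' (vJ R X' a' (U ((X' : ℂ), a', D'))) (vJ R X a (U ((X : ℂ), a, D))) N →
    ‖E ((X' : ℂ), a', D') - E ((X : ℂ), a, D)‖ ≤ A * N ^ (65 / 66 : ℝ)

/-- the admissible inner data -/
def Ub (R ε : ℝ) (b0 : Wi (omP 2)) : Set (Wi (omP 2)) := {b | R ^ (13 / 8 : ℝ) * ‖b0 + b‖ < ε / 2}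

theorem isOpen_Ub (R ε : ℝ) (b0 : Wi (omP 2)) : IsOpen (Ub R ε b0) :=
  isOpen_lt (by fun_prop) continuous_const

/-- the reading on the working data -/
def eW (E : Par ℓ → W) (b0 : Wi (omP 2)) (X a h : ℂ) (b : Wi (omP 2)) : W := E (X, a, wd (b0 + b) h)

theorem mem_dom {R K ε X : ℝ} {a h : ℂ} {b0 b : Wi (omP 2)} (h1 : 2 * R + 4 < X) (h2 : 2 * √K < X)
    (h0 : 0 < X) (ha : Adm K X a) (hb : b ∈ Ub R ε b0) (hh : X * ‖h‖ ≤ ε / 2) :
    ((X : ℂ), a, wd (ℓ := ℓ) (b0 + b) h) ∈ Dom R K (13 / 8) (7 / 4) ε :=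
  ⟨h1, h2, by simpa using h0, ha, by
    rw [dn_wd]; have : R ^ (13 / 8 : ℝ) * ‖b0 + b‖ < ε / 2 := hb
    simp only [ofReal_re]; linarith⟩

theorem pow_ev (C : ℝ) : ∀ᶠ X : ℝ in atTop, C * X ^ (-33 / 8 : ℝ) ≤ 1 := by
  have := (tendsto_rpow_neg_atTop (y := 33 / 8) (by norm_num)).const_mul C
  rw [mul_zero] at this
  filter_upwards [this.eventually (ge_mem_nhds one_pos)] with X h
  rwa [neg_div]

theorem pow_eq {C X : ℝ} (hC : 0 ≤ C) (hX : 0 ≤ X) : (C * X ^ (-33 / 8 : ℝ)) ^ (65 / 66 : ℝ) =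
    C ^ (65 / 66 : ℝ) * X ^ (-(4 + 1 / 16) : ℝ) := by
  rw [Real.mul_rpow hC (by positivity), ← Real.rpow_mul hX]; norm_num

theorem inv5_le {X : ℝ} (hX : 1 ≤ X) : 1 / X ^ 5 ≤ X ^ (-(4 + 1 / 16) : ℝ) := by
  have := Real.rpow_le_rpow_of_exponent_le hX (show (-(5 : ℕ) : ℝ) ≤ -(4 + 1 / 16) by norm_num)
  rwa [Real.rpow_neg (by linarith), Real.rpow_natCast, ← one_div] at this

variable {U : Par ℓ → Jt ℓ} {R K ε ε1 C0 Ch c CD C c0 X0 M A : ℝ} {E : Par ℓ → W}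

/-- one step of the drift, read in `W` -/
theorem Fm.step (F : Fm U R K ε ε1 C0 Ch c CD C c0) (H : Rdg U R K ε E X0 M A) : ∃ X1 : ℝ, 2 ≤ X1 ∧
    X0 < X1 ∧ 2 * R + 4 < X1 ∧ 2 * √K < X1 ∧
    ∀ (X X' : ℝ) (a h : ℂ) (b0 b : Wi (omP 2)), X1 ≤ X → X ≤ X' → Adm K X' a → ‖a‖ ≤ c / X ^ 2 →
      ‖h‖ ≤ Ch / (X' ^ 3 * ‖et a X'‖) → X' * ‖h‖ ≤ ε / 2 → b ∈ Ub R ε b0 →
      ∃ τ : ℂ, ‖τ‖ ≤ 2 * c / X ^ 2 ∧
        ‖hat X τ - hat X' a‖ ≤ CD * (1 / (X ^ 6 * (et a X').re) + 1 / X ^ 5) ∧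
        ‖eW E b0 X' a h b - eW E b0 X τ 0 b‖ ≤ A * C ^ (65 / 66 : ℝ) * X ^ (-(4 + 1 / 16) : ℝ) := by
  obtain ⟨X1, h1⟩ := eventually_atTop.1 ((pow_ev C).and ((eventually_gt_atTop X0).and
    ((eventually_gt_atTop (2 * R + 4)).and ((eventually_gt_atTop (2 * √K)).and
      (eventually_ge_atTop 2)))))
  obtain ⟨-, g1, g2, g3, g4⟩ := h1 X1 le_rfl
  refine ⟨X1, g4, g1, g2, g3, fun X X' a h b0 b hX hXX ha hac hh hh' hb => ?_⟩
  obtain ⟨k1, k2, k3, k4, k5⟩ := h1 X hX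
  have hz' := mem_dom (ℓ := ℓ) (k3.trans_le hXX) (k4.trans_le hXX) (by linarith) ha hb hh'
  have S' := F.sl hz'
  obtain ⟨d1, d2⟩ := F.drift X X' a h (b0 + b) _ k3.le k4.le hXX ha
    (by rwa [le_div_iff₀ (by positivity)] at hac) hh S'.sol (by simpa using S'.inb)
  have t1 := F.tau_sub hz' k3.le hXX
  set τ := tauX R X X' a (U ((X' : ℂ), a, wd (b0 + b) h))
  have t2 : ‖τ‖ ≤ 2 * c / X ^ 2 := by
    have := norm_add_le (τ - a) a
    rw [sub_add_cancel] at this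
    rw [mul_div_assoc]; linarith
  have hK : 4 * K < X ^ 2 := by
    have := Real.sq_sqrt F.K_pos.le
    nlinarith [Real.sqrt_nonneg K]
  have hz := mem_dom (ℓ := ℓ) (h := 0) k3 k4 (by linarith) (Xi.adm_small (by linarith) hK (a := τ)
    (t2.trans (by gcongr; linarith [F.c_le]))) hb (by simp only [norm_zero, mul_zero]; linarith [F.ε_pos])
  have S := F.sl hz
  have d3 := d2 0 _ (by rw [norm_zero]; have := F.Ch_nonneg; positivity) S.sol (by simpa using S.inb)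
  have hC := F.C_pos
  refine ⟨τ, t2, d1, (H.lip X X' τ a _ _ _ k2 hXX (by positivity) k1 hz hz' d3).trans_eq ?_⟩
  rw [pow_eq hC.le (by linarith), mul_assoc]

theorem Rdg.diffAt (H : Rdg U R K ε E X0 M A) {P : Type*} [NormedAddCommGroup P] [NormedSpace ℂ P]
    {V : Set P} {X a h : P → ℂ} {b : P → Wi (omP 2)} (b0 : Wi (omP 2)) (h1 : DifferentiableOn ℂ X V)
    (h2 : DifferentiableOn ℂ a V) (h3 : DifferentiableOn ℂ h V) (h4 : DifferentiableOn ℂ b V)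
    (hm : ∀ p ∈ V, (X p, a p, wd (ℓ := ℓ) (b0 + b p) (h p)) ∈ Dom R K (13 / 8) (7 / 4) ε ∧
      X0 < (X p).re) : DifferentiableOn ℂ (fun p => eW E b0 (X p) (a p) (h p) (b p)) V :=
  H.hol.comp (f := fun p => (X p, a p, wd (ℓ := ℓ) (b0 + b p) (h p)))
    (h1.prodMk (h2.prodMk (differentiable_wd.comp_differentiableOn
      (f := fun p => (b0 + b p, h p)) ((h4.const_add b0).prodMk h3)))) hm

/-- the easy family -/
theorem Fm.dr0 (F : Fm U R K ε ε1 C0 Ch c CD C c0) (H : Rdg U R K ε E X0 M A) (b0 : Wi (omP 2)) :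
    ∃ C' X1, El.Dr0 (fun X a b => eW E b0 X a 0 b) (Ub R ε b0) c (1 / 16) C' X1 := by
  obtain ⟨X1, g0, g1, g2, g3, hs⟩ := F.step H
  have hc := F.c_pos
  have hc' := F.c_le
  have hCD := F.CD_pos
  have hA := H.A_nonneg
  have hC := F.C_pos
  have hK : ∀ X, X1 ≤ X → 4 * K < X ^ 2 := fun X hX => by
    have := Real.sq_sqrt F.K_pos.le
    nlinarith [Real.sqrt_nonneg K]
  have h4 : ∀ X, X1 ≤ X → 4 * c / X ^ 2 ≤ 1 / X ^ 2 := fun X hX => by gcongr; linarith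
  have hm : ∀ X, X1 ≤ X → ∀ a ∈ ball (0 : ℂ) (4 * c / X ^ 2), ∀ b ∈ Ub R ε b0,
      ((X : ℂ), a, wd (ℓ := ℓ) (b0 + b) 0) ∈ Dom R K (13 / 8) (7 / 4) ε ∧ X0 < (X : ℂ).re :=
    fun X hX a ha b hb => ⟨mem_dom (by linarith) (by linarith) (by linarith)
      (Xi.adm_small (by linarith) (hK X hX) ((mem_ball_zero_iff.1 ha).le.trans (h4 X hX))) hb
      (by simp only [norm_zero, mul_zero]; linarith [F.ε_pos]), by simpa using g1.trans_le hX⟩
  refine ⟨|M| + 3 * CD + A * C ^ (65 / 66 : ℝ), X1, isOpen_Ub _ _ _, hc, hc', by norm_num, by norm_num,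
    fun X hX b hb => H.diffAt b0 (differentiableOn_const _) differentiableOn_id
      (differentiableOn_const _) (differentiableOn_const _) fun a ha => hm X hX a ha b hb,
    fun X hX a ha => H.diffAt b0 (differentiableOn_const _) (differentiableOn_const _)
      (differentiableOn_const _) differentiableOn_id fun b hb => hm X hX a ha b hb,
    fun X hX a ha b hb => ?_, fun X X' hX hXX _ a ha ha' b hb => ?_⟩
  · have := H.bd _ (hm X hX a ha b hb).1 (hm X hX a ha b hb).2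
    have h2 : 0 ≤ A * C ^ (65 / 66 : ℝ) := by positivity
    exact this.trans (by linarith [le_abs_self M])
  · have hX' := hX.trans hXX
    have ha1 := ha.trans (h4 X' hX')
    obtain ⟨τ, t1, t2, t3⟩ := hs X X' a 0 b0 b hX hXX (Xi.adm_small (by linarith) (hK X' hX') ha1)
      ha' (by
        have : 0 < X' := by linarith
        rw [norm_zero]; have := F.Ch_nonneg; positivity)
      (by simp only [norm_zero, mul_zero]; linarith [F.ε_pos]) hb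
    have hp : 0 < X ^ (-(4 + 1 / 16) : ℝ) := Real.rpow_pos_of_pos (by linarith) _
    have h2 : 0 ≤ A * C ^ (65 / 66 : ℝ) := by positivity
    refine ⟨τ, t1, t2.trans ?_, t3.trans (by gcongr; linarith [abs_nonneg M])⟩
    have h5 := Xi.re_et (by linarith) ha1
    have h6 := inv5_le (X := X) (by linarith)
    have h7 : 1 / (X ^ 6 * (et a X').re) ≤ 2 * (1 / X ^ 5) := by
      rw [div_le_iff₀ (by have : 0 < X := by linarith
                          positivity)]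
      have : 2 * (1 / X ^ 5) * (X ^ 6 * (et a X').re) = 2 * X * (et a X').re := by
        have : X ≠ 0 := by linarith
        field_simp
      rw [this]; nlinarith
    nlinarith [mul_nonneg (abs_nonneg M) hp.le, mul_nonneg h2 hp.le]

/-- the family up to the tip with a far slope `h X a` -/
theorem Fm.dr1 (F : Fm U R K ε ε1 C0 Ch c CD C c0) (H : Rdg U R K ε E X0 M A) (b0 : Wi (omP 2))
    {K' X2 : ℝ} (hK : K ≤ K') {h : ℝ → ℂ → ℂ}
    (hd : ∀ X, X2 ≤ X → DifferentiableOn ℂ (h X) {a | Adm K' X a})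
    (hb : ∀ X, X2 ≤ X → ∀ a, Adm K' X a →
      ‖h X a‖ ≤ Ch / (X ^ 3 * ‖et a X‖) ∧ X * ‖h X a‖ ≤ ε / 2) :
    ∃ C' X1, X2 ≤ X1 ∧ El.Dr1 (fun X a b => eW E b0 X a (h X a) b) (fun X a b => eW E b0 X a 0 b)
      (Ub R ε b0) K' c c (1 / 16) (CD / c ^ 6) C' X1 := by
  obtain ⟨X1, g0, g1, g2, g3, hs⟩ := F.step H
  have hc := F.c_pos
  have hc' := F.c_le
  have hCD := F.CD_pos
  have hA := H.A_nonneg
  have hC := F.C_pos
  have hle : ∀ X, max X2 (X1 / c) ≤ X → X1 ≤ c * X ∧ c * X ≤ X ∧ X2 ≤ X := fun X hX => by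
    have h1 := (le_max_right _ _).trans hX
    rw [div_le_iff₀ hc] at h1
    have : 0 ≤ X := by nlinarith
    exact ⟨by linarith, by nlinarith, (le_max_left _ _).trans hX⟩
  refine ⟨(CD + A * C ^ (65 / 66 : ℝ)) * c ^ (-(4 + 1 / 16) : ℝ), max X2 (X1 / c), le_max_left _ _,
    by linarith [F.sz.hK], hc, by linarith, by positivity, fun X hX b hb' => ?_,
    fun X hX a ha b hb' => ?_⟩
  · obtain ⟨k1, k2, k3⟩ := hle X hX
    exact H.diffAt b0 (differentiableOn_const _) differentiableOn_id (hd X k3)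
      (differentiableOn_const _) fun a ha => ⟨mem_dom (by linarith) (by linarith) (by linarith)
        (adm_mono ha hK) hb' (hb X k3 a ha).2, by simp only [ofReal_re]; linarith⟩
  · obtain ⟨k1, k2, k3⟩ := hle X hX
    have hX0 : 0 < X := by linarith
    have ha' := adm_mono ha hK
    have h5 := Xi.Tip.norm_le ha' F.K_pos.le
    obtain ⟨τ, t1, t2, t3⟩ := hs (c * X) X a (h X a) b0 b k1 k2 ha' (by
      rw [le_div_iff₀ (by positivity), mul_pow]; nlinarith [mul_pos hc hc]) (hb X k3 a ha).1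
      (hb X k3 a ha).2 hb'
    have e : (c * X) ^ (-(4 + 1 / 16) : ℝ) = c ^ (-(4 + 1 / 16) : ℝ) * X ^ (-(4 + 1 / 16) : ℝ) :=
      Real.mul_rpow hc.le hX0.le
    have h6 := inv5_le (X := c * X) (by linarith)
    have hp : 0 < (c * X) ^ (-(4 + 1 / 16) : ℝ) := by positivity
    have h2 : 0 ≤ A * C ^ (65 / 66 : ℝ) := by positivity
    refine ⟨τ, t1, t2.trans ?_, t3.trans ?_⟩
    · have e2 : CD / c ^ 6 * X ^ (-6 : ℝ) / (et a X).re = CD * (1 / ((c * X) ^ 6 * (et a X).re)) := by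
        rw [show (-6 : ℝ) = -(6 : ℕ) by norm_num, Real.rpow_neg hX0.le, Real.rpow_natCast]
        field_simp
      rw [e2, mul_assoc, ← e, mul_add]
      nlinarith [mul_nonneg h2 hp.le]
    · rw [mul_assoc _ (c ^ _), ← e]
      nlinarith [mul_nonneg hCD.le hp.le]

end Crest.Agent.N250.Em

end
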