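import Crest.Agent.N250.Em.Rd
import Crest.Agent.N250.El.Exp
import Crest.Agent.N250.El.Near
import Crest.Agent.N250.Xi.EndC
import Crest.Agent.N250.Gi.Fe
import Crest.Agent.N250.Gi.Cj
import Crest.Agent.N250.Gl.Fix

/-!
# Row 250 (helper4): the end map of a family of readings satisfies `Gl.EF`
-/

set_option autoImplicit false
set_option linter.unusedSectionVars false
open Set Filter Topology Metric Complex
open scoped ComplexConjugate

noncomputable section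

namespace Crest.Agent.N250.Em

open B1
open Gi (hat KK hN wf Ow Big Pw)

variable {ℓ : Ell} {U : Par ℓ → Jt ℓ} {R K ε ε1 C0 c CD C c0 : ℝ}
variable {W : Type*} [NormedAddCommGroup W] [NormedSpace ℂ W]

/-- inner data -/
abbrev BI : Type := Wi (omP 2)

theorem exp_mono {B : Type*} [NormedAddCommGroup B] [NormedSpace ℂ B] {e0 : ℝ → ℂ → B → W}
    {V : Set B} {x0 x1 x2 : B → W} {A A' : ℝ} (h : El.Exp e0 V c x0 x1 x2 A) (hA : A ≤ A') :
    El.Exp e0 V c x0 x1 x2 A' :=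
  ⟨h.d0, h.d1, h.d2, fun b hb => (h.b0 b hb).trans hA, fun b hb => (h.b1 b hb).trans hA,
    fun b hb => (h.b2 b hb).trans hA, h.ex, h.t0, h.t1⟩

theorem big_ev (hR : 0 < R) (hε : 0 < ε) (K : ℝ) : ∀ᶠ N : ℕ in atTop, K ≤ KK N - 1 / 2 ∧
    ∀ᶠ X : ℝ in atTop, Big N R (KK N - 1 / 2) ε X ∧ 4 * KK N ≤ X ^ 2 := by
  have t : Tendsto (fun N : ℕ => (N : ℝ)) atTop atTop := tendsto_natCast_atTop_atTop
  filter_upwards [eventually_ge_atTop HJ.N0, t.eventually_ge_atTop (8000 / ε),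
    t.eventually_ge_atTop K] with N h1 h2 h3
  have p := tendsto_pow_atTop (α := ℝ) two_ne_zero
  refine ⟨by unfold KK; linarith [Nat.cast_nonneg (α := ℝ) N], ?_⟩
  filter_upwards [eventually_ge_atTop (2 * R + 4), eventually_ge_atTop (4 * √(KK N - 1 / 2)),
    p.eventually_ge_atTop (20 / ε), p.eventually_ge_atTop (4 * KK N)] with X a1 a2 a3 a4
  exact ⟨⟨hR, hε, h1, by linarith, le_rfl, a1, a2, a3⟩, a4⟩

section one

variable {E : Par ℓ → W} {b0 : BI} {N : ℕ} {X1 M A A' : ℝ} {x0 x1 x2 : BI → W}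

theorem mem_Ow {K' X1 X : ℝ} {a : ℂ} {b : BI} (h0 : 0 < X) (hX : X1 < X) (ha : Adm K' X a)
    (hb : b ∈ Ub R ε b0) : (((X : ℂ), a, b0 + b) : Pw) ∈ Ow R K' (13 / 8) ε X1 :=
  ⟨hX, by simpa using h0, ha, hb⟩

theorem Fm.dr1N (F : Fm U R K ε ε1 C0 6015 c CD C c0) (H : Rdg U R K ε E 0 M A) (b0 : BI)
    (hB : Big N R (KK N - 1 / 2) ε X1) (h4 : 4 * KK N ≤ X1 ^ 2) {K' : ℝ} (hK : K ≤ K')
    (hK' : KK N - 1 / 2 ≤ K') :
    ∃ C' X2, El.Dr1 (fun X a b => E (wf ℓ N (X, a, b0 + b))) (fun X a b => eW E b0 X a 0 b)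
      (Ub R ε b0) K' c c (1 / 16) (CD / c ^ 6) C' X2 := by
  have x4 := hB.X4
  have k : ∀ X, X1 + 1 ≤ X → 2 ≤ X ∧ 4 * KK N ≤ X ^ 2 := fun X hX =>
    ⟨by linarith, h4.trans (pow_le_pow_left₀ (by linarith) (by linarith) 2)⟩
  obtain ⟨C', X2, -, h⟩ := F.dr1 H b0 (X2 := X1 + 1) hK (h := fun X a => hN N X a)
    (fun X hX => (Xi.EC.hN_diffOn hB.N0 (k X hX).1 (k X hX).2).mono fun a ha => adm_mono ha hK')
    fun X hX a ha => ⟨Xi.EC.hN_le hB.N0 (adm_mono ha hK') (k X hX).1 (k X hX).2, by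
      have := hB.hN_small (g := 13 / 8) (q := (X, a, 0)) ⟨by simp only [ofReal_re]; linarith,
        by simp only [ofReal_im, abs_zero, ofReal_re]; exact inv_pos.2 (by linarith),
        adm_mono ha hK', by simpa using hB.ε0⟩
      simpa using this⟩
  exact ⟨C', X2, h⟩

theorem wf_conj (hB : Big N R (KK N - 1 / 2) ε X1) (hb0 : Wi.cj b0 = b0) {X : ℝ} {a : ℂ} {b : BI}
    (hq : (((X : ℂ), a, b0 + b) : Pw) ∈ Ow R (KK N - 1 / 2) (13 / 8) ε X1) :
    wf ℓ N (X, conj a, b0 + Wi.cj b) = cz (wf ℓ N (X, a, b0 + b)) := by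
  rw [← Gi.Cj.wf_cj hB hq, Gi.Cj.cq, conj_ofReal, Cj.cj_add, hb0]

theorem cj_Ub (hb0 : Wi.cj b0 = b0) {b : BI} (hb : b ∈ Ub R ε b0) : Wi.cj b ∈ Ub R ε b0 := by
  change _ * ‖b0 + Wi.cj b‖ < _
  rw [← hb0, ← Cj.cj_add, Cj.norm_cj]; exact hb

/-- a conjugation of `W` -/
structure IsCj (cw : W → W) : Prop where
  add : ∀ u v, cw (u + v) = cw u + cw v
  smul : ∀ (a : ℂ) u, cw (a • u) = conj a • cw u
  le : ∀ u, ‖cw u‖ ≤ ‖u‖

/-- as a real linear map -/
def IsCj.clm {cw : W → W} (h : IsCj cw) : W →L[ℝ] W :=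
  LinearMap.mkContinuous ⟨⟨cw, h.add⟩, fun r u => by
    simpa using h.smul r u⟩ 1 fun u => by simpa using h.le u

/-- reality of the coefficients -/
theorem Fm.real (F : Fm U R K ε ε1 C0 6015 c CD C c0) (H : Rdg U R K ε E 0 M A)
    (hE : El.Exp (fun X a b => eW E b0 X a 0 b) (Ub R ε b0) c x0 x1 x2 A') {cw : W → W}
    (hw : IsCj cw) (hb0 : Wi.cj b0 = b0) (hc : ∀ z ∈ DD ℓ R K ε, E (cz z) = cw (E z)) {b : BI}
    (hb : b ∈ Ub R ε b0) :
    x0 (Wi.cj b) = cw (x0 b) ∧ x1 (Wi.cj b) = cw (x1 b) ∧ x2 (Wi.cj b) = cw (x2 b) := by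
  obtain ⟨N, hK, hX⟩ := (big_ev (by linarith [F.sz.hR]) F.ε_pos K).exists
  obtain ⟨X1, hB, h4⟩ := hX.exists
  obtain ⟨C', X2, h⟩ := F.dr1N H b0 hB h4 hK le_rfl
  obtain ⟨C2, k2, X3, -, k0, -, -, h5⟩ := h.near0 hE (by linarith [F.c_le]) (by norm_num)
  refine Xi.EC.Ap.real (K := KK N - 1 / 2) ⟨k0, fun b hb => ⟨hE.b1 b hb, hE.b2 b hb⟩, h5⟩ hw.clm hb
    (cj_Ub hb0 hb) ?_
  filter_upwards [eventually_gt_atTop X1] with X hX s hs
  have x4 := hB.X4
  have hq := mem_Ow (R := R) (ε := ε) (by linarith) hX (Xi.EC.adm_small (K := KK N - 1 / 2)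
    (a := s) (by linarith) (by nlinarith) (by simpa using hs)) hb
  have := wf_conj (ℓ := ℓ) hB hb0 hq
  rw [conj_ofReal] at this
  rw [this]
  exact hc _ (hB.mem hK hq)

end one

variable {κ : Type} [Fintype κ]

/-- the end map -/
def eN (E : κ → Par ℓ → W) (b0 : κ → BI) (N : ℕ) (q : ℂ × (κ → ℂ)) (b : κ → BI) : κ → W :=
  fun j => E j (wf ℓ N (q.1, q.2 j, b0 j + b j))

/-- its limit -/
def EnO (x0 x1 x2 : κ → BI → W) (z : (κ → ℂ) × (κ → BI)) : κ → W :=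
  fun j => x0 j (z.2 j) + z.1 j • x1 j (z.2 j) + z.1 j ^ 2 • x2 j (z.2 j)

/-- the limit data -/
structure Lm (E : κ → Par ℓ → W) (b0 : κ → BI) (R ε c : ℝ) (x0 x1 x2 : κ → BI → W) (A rb : ℝ) :
    Prop where
  rb_pos : 0 < rb
  A_nonneg : 0 ≤ A
  sub : ∀ j, ball 0 rb ⊆ Ub R ε (b0 j)
  exp : ∀ j, El.Exp (fun X a b => eW (E j) (b0 j) X a 0 b) (Ub R ε (b0 j)) c (x0 j) (x1 j) (x2 j) A

variable {E : κ → Par ℓ → W} {b0 : κ → BI} {x0 x1 x2 : κ → BI → W} {A rb : ℝ}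

theorem Fm.exists_lm [CompleteSpace W] {Ch : ℝ} (F : Fm U R K ε ε1 C0 Ch c CD C c0)
    (H : ∀ j, RD U R K ε (E j)) (hb : ∀ j, R ^ (13 / 8 : ℝ) * ‖b0 j‖ < ε / 2) :
    ∃ x0 x1 x2 A rb, Lm E b0 R ε c x0 x1 x2 A rb := by
  choose M A h using H
  choose C' X1 d using fun j => F.dr0 (h j) (b0 j)
  choose x0 x1 x2 A' e using fun j => (d j).exp
  obtain ⟨A0, hA⟩ := (finite_range A').bddAbove
  have : ∀ᶠ r in 𝓝[>] (0 : ℝ), ∀ j, ball 0 r ⊆ Ub R ε (b0 j) := eventually_all.2 fun j =>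
    (eventually_ball_subset ((isOpen_Ub R ε (b0 j)).mem_nhds (by simpa [Ub] using hb j))).filter_mono
      nhdsWithin_le_nhds
  obtain ⟨rb, h1, h2⟩ := (this.and self_mem_nhdsWithin).exists
  exact ⟨x0, x1, x2, max A0 0, rb, h2, le_max_right _ _, h1,
    fun j => exp_mono (e j) ((hA (mem_range_self j)).trans (le_max_left _ _))⟩

namespace Lm

variable (L : Lm E b0 R ε c x0 x1 x2 A rb)
include L

theorem mem {b : κ → BI} (hb : b ∈ ball (0 : κ → BI) rb) (j : κ) : b j ∈ Ub R ε (b0 j) :=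
  L.sub j (mem_ball_zero_iff.2 ((norm_le_pi_norm b j).trans_lt (mem_ball_zero_iff.1 hb)))

theorem ev : ∀ᶠ z in 𝓝 (0 : (κ → ℂ) × (κ → BI)), z.2 ∈ ball (0 : κ → BI) rb :=
  continuous_snd.continuousAt.eventually_mem (ball_mem_nhds _ L.rb_pos)

theorem diffAt {z : (κ → ℂ) × (κ → BI)} (hz : z.2 ∈ ball (0 : κ → BI) rb) :
    DifferentiableAt ℂ (EnO x0 x1 x2) z := by
  refine differentiableAt_pi.2 fun j => ?_
  have n := (isOpen_Ub R ε (b0 j)).mem_nhds (L.mem hz j)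
  have p : DifferentiableAt ℂ (fun z : (κ → ℂ) × (κ → BI) => z.2 j) z := by fun_prop
  have q : DifferentiableAt ℂ (fun z : (κ → ℂ) × (κ → BI) => z.1 j) z := by fun_prop
  exact ((((L.exp j).d0.differentiableAt n).comp z p).add
    (q.smul (((L.exp j).d1.differentiableAt n).comp z p))).add
    ((q.pow 2).smul (((L.exp j).d2.differentiableAt n).comp z p))

theorem hol : Gl.HolAt (EnO x0 x1 x2) := L.ev.mono fun _ hz => L.diffAt hz

theorem zero (h : ∀ j, Tendsto (fun X : ℝ => E j (X, 0, wd (b0 j) 0)) atTop (𝓝 0)) :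
    EnO x0 x1 x2 0 = 0 := funext fun j => by
  have := (L.exp j).t0 0 (L.sub j (mem_ball_self L.rb_pos))
  simp only [eW, add_zero] at this
  simpa [EnO] using tendsto_nhds_unique this (h j)

/-- the derivative at the origin -/
theorem fderiv_zero (α : κ → ℂ) (β : κ → BI) (j : κ) :
    fderiv ℂ (EnO x0 x1 x2) 0 (α, β) j = fderiv ℂ (x0 j) 0 (β j) + α j • x1 j 0 := by
  have n := (isOpen_Ub R ε (b0 j)).mem_nhds (L.sub j (mem_ball_self L.rb_pos))
  set P : (κ → ℂ) × (κ → BI) →L[ℂ] BI := (ContinuousLinearMap.proj j).comp (.snd ℂ _ _)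
  set Q : (κ → ℂ) × (κ → BI) →L[ℂ] ℂ := (ContinuousLinearMap.proj j).comp (.fst ℂ _ _)
  have d : ∀ {x : BI → W}, DifferentiableOn ℂ x (Ub R ε (b0 j)) →
      HasFDerivAt (fun z => x (P z)) ((fderiv ℂ x 0).comp P) 0 := fun h =>
    HasFDerivAt.comp 0 (by simpa using (h.differentiableAt n).hasFDerivAt) P.hasFDerivAt
  have h1 := ((d (L.exp j).d0).add (Q.hasFDerivAt.smul (d (L.exp j).d1))).add
    ((Q.hasFDerivAt.pow 2).smul (d (L.exp j).d2))
  have h2 := (hasFDerivAt_pi'.1 (L.diffAt (z := 0) (mem_ball_self L.rb_pos)).hasFDerivAt j).unique h1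
  simpa [P, Q] using congrArg (· (α, β)) h2

variable (F : Fm U R K ε ε1 C0 6015 c CD C c0) (H : ∀ j, RD U R K ε (E j)) {cw : W → W}
  (hb0 : ∀ j, Wi.cj (b0 j) = b0 j) (hc : ∀ j, ∀ z ∈ DD ℓ R K ε, E j (cz z) = cw (E j z))
include F H hb0 hc

theorem cj (hw : IsCj cw) : ∀ᶠ z in 𝓝 (0 : (κ → ℂ) × (κ → BI)),
    EnO x0 x1 x2 (star z.1, fun j => Wi.cj (z.2 j)) = fun j => cw (EnO x0 x1 x2 z j) :=
  L.ev.mono fun z hz => funext fun j => by
    obtain ⟨M, A', h⟩ := H j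
    obtain ⟨h0, h1, h2⟩ := F.real h (L.exp j) hw (hb0 j) (hc j) (L.mem hz j)
    simp [EnO, h0, h1, h2, hw.add, hw.smul]

/-- **the end map** -/
theorem ef : ∀ᶠ N : ℕ in atTop, ∃ X0 C' k, Gl.EF (EnO x0 x1 x2) (fun b j => Wi.cj (b j))
    (fun w j => cw (w j)) rb (KK N - 1 / 4) (2 * A * (CD / c ^ 6) / ((N : ℝ) + 1)) (eN E b0 N) X0
    (1 / 16) C' k := by
  filter_upwards [big_ev (by linarith [F.sz.hR]) F.ε_pos K] with N ⟨hK, hX⟩
  obtain ⟨X1, hB, h4⟩ := hX.exists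
  have x4 := hB.X4
  have k7 := Xi.EC.KK_ge N
  choose M A' h using H
  choose C1 X2 d using fun j => F.dr1N (h j) (b0 j) hB h4 (K' := KK N - 1 / 4) (by linarith)
    (by linarith)
  choose C2 k X3 p2 pk p3 _ e using fun j =>
    (d j).near (L.exp j) (by linarith [F.c_le]) (by norm_num)
  obtain ⟨M0, hM⟩ := (finite_range M).bddAbove
  obtain ⟨C3, hC⟩ := (finite_range C2).bddAbove
  obtain ⟨X4, hX4⟩ := (finite_range X3).bddAbove
  obtain ⟨k0, hk, k0p⟩ := ((eventually_all.2 fun j => Ioc_mem_nhdsGT (pk j)).and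
    (self_mem_nhdsWithin (a := (0 : ℝ)) (s := Ioi 0))).exists
  have hc0 := F.c_pos
  have hCD := F.CD_pos
  have hA := L.A_nonneg
  have ow : ∀ {z a : ℂ} {b : κ → BI} (j : κ), b ∈ ball (0 : κ → BI) rb → X1 < z.re →
      |z.im| < z.re⁻¹ → Adm (KK N - 1 / 2) z.re a →
      ((z, a, b0 j + b j) : Pw) ∈ Ow R (KK N - 1 / 2) (13 / 8) ε X1 :=
    fun j hb h1 h2 h3 => ⟨h1, h2, h3, L.mem hb j⟩
  have dm : ∀ {q : Pw}, q ∈ Ow R (KK N - 1 / 2) (13 / 8) ε X1 →
      wf ℓ N q ∈ DD ℓ R K ε ∩ {z | 0 < z.1.re} := fun hq => ⟨hB.mem hK hq, by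
    have := hq.1
    change 0 < Complex.re _
    simp only [wf]; linarith⟩
  have hd : ∀ j, DifferentiableOn ℂ (fun q => E j (wf ℓ N q)) (Ow R (KK N - 1 / 2) (13 / 8) ε X1) :=
    fun j => (h j).hol.comp (fun _ hq => (hB.diff hq).differentiableWithinAt) fun _ hq => dm hq
  refine ⟨max (X1 + 1) X4, max C3 (32 * |M0|), k0, by linarith, by norm_num, k0p, ?_,
    fun X hX a ha b hb => ?_, fun q hq b hb => ?_, fun X hX a ha b hb => funext fun j => ?_⟩
  · refine differentiableOn_pi.2 fun j => (hd j).comp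
      (f := fun z : (ℂ × (κ → ℂ)) × (κ → BI) => ((z.1.1, z.1.2 j, b0 j + z.2 j) : Pw))
      (by fun_prop) fun z hz => ?_
    have h1 : X1 + 1 < z.1.1.re := (le_max_left _ _).trans_lt hz.1.1
    refine ow j hz.2 (by linarith) (hz.1.2.1.trans_le ?_) (adm_mono (hz.1.2.2 j) (by linarith))
    rw [inv_eq_one_div]
    exact div_le_div_of_nonneg_right (by norm_num) (by linarith)
  · have h1 : X1 + 1 < X := (le_max_left _ _).trans_lt hX
    have c3 : 0 ≤ max C3 (32 * |M0|) := le_max_of_le_right (by positivity)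
    have x0 : 0 < X := by linarith
    refine (pi_norm_le_iff_of_nonneg (by positivity)).2 fun j => ?_
    refine (e j X ((hX4 (mem_range_self j)).trans ((le_max_right _ _).trans hX.le)) _ (ha j) _
      (L.mem hb j)).trans ?_
    have a1 : (N : ℝ) + 1 ≤ KK N - 1 / 4 := by unfold KK; linarith [Nat.cast_nonneg (α := ℝ) N]
    have a2 : X ^ (-k j) ≤ X ^ (-k0) :=
      Real.rpow_le_rpow_of_exponent_le (by linarith) (by linarith [(hk j).2])
    have a3 := (hC (mem_range_self j)).trans (le_max_left C3 (32 * |M0|))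
    gcongr
  · obtain ⟨z, a⟩ := q
    obtain ⟨h1, h2, h3⟩ := hq
    dsimp only at h1 h2 h3 ⊢
    have h1 : X1 + 1 < z.re := (le_max_left _ _).trans_lt h1
    obtain ⟨X, hX⟩ : ∃ X, X = z.re := ⟨_, rfl⟩
    rw [← hX] at h1 h2 h3 ⊢
    have x0 : 0 < X := by linarith
    have r1 : 1 / (16 * X) ≤ 1 := by rw [div_le_one (by positivity)]; linarith
    have key : ∀ j, ∀ u ∈ ball (X : ℂ) (1 / (16 * X)),
        ((u, a j, b0 j + b j) : Pw) ∈ Ow R (KK N - 1 / 2) (13 / 8) ε X1 := fun j u hu => by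
      have n := mem_ball_iff_norm.1 hu
      have n1 := (abs_re_le_norm _).trans_lt n
      have n2 := (abs_im_le_norm _).trans_lt n
      simp only [sub_re, ofReal_re, sub_im, ofReal_im, sub_zero] at n1 n2
      have n3 := abs_lt.1 n1
      refine ow j hb (by linarith) (n2.trans_le ?_) ?_
      · rw [inv_eq_one_div]
        exact one_div_le_one_div_of_le (by linarith) (by linarith)
      · have := Gi.adm_step (d := 0) (by linarith) (by linarith)
          (by nlinarith) (h3 j) n1.le (by rw [norm_zero]; positivity)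
        rwa [add_sub_cancel, add_zero, show KK N - 1 / 4 - 1 / 4 = KK N - 1 / 2 by ring] at this
    have nz : ‖z - X‖ = |z.im| := by
      rw [show z - X = (z.im : ℂ) * I by rw [hX]; apply Complex.ext <;> simp]; simp
    refine (pi_norm_le_iff_of_nonneg (by positivity)).2 fun j => ?_
    have := H.lip_le (f := fun u => E j (wf ℓ N (u, a j, b0 j + b j))) (M := |M0|) (z := z)
      ((hd j).comp (f := fun u : ℂ => ((u, a j, b0 j + b j) : Pw)) (by fun_prop) (key j))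
      (fun u hu => ((h j).bd _ (dm (key j u hu)).1 (dm (key j u hu)).2).trans
        ((hM (mem_range_self j)).trans (le_abs_self _)))
      (by rw [mem_ball_iff_norm, nz, ← div_div]; exact h2)
    refine this.trans ?_
    rw [nz, show 2 * |M0| / (1 / (16 * X)) * |z.im| = 32 * |M0| * (X * |z.im|) by field_simp; ring]
    gcongr
    exact le_max_right _ _
  · have h1 : X1 + 1 < X := (le_max_left _ _).trans_lt hX
    have hq := mem_Ow (R := R) (ε := ε) (X1 := X1) (by linarith) (by linarith)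
      (adm_mono (ha j) (show KK N - 1 / 2 ≤ _ by linarith)) (L.mem hb j)
    exact (congrArg (E j) (wf_conj hB (hb0 j) hq)).trans (hc j _ (hB.mem hK hq))

end Lm

end Crest.Agent.N250.Em

end
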