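import Crest.Agent.N250.Ra.Lan

/-!
# Row 250 (helper4): Landau–Kolmogorov interpolation on strips, for families
-/

set_option autoImplicit false

open Set Filter Metric
open scoped Topology ContDiff

namespace Crest.Agent.N250.Em

variable {X Y : Type} [NormedAddCommGroup X] [NormedSpace ℝ X] [NormedAddCommGroup Y]
  [NormedSpace ℝ Y]

theorem landau_loc {H : Set X} (hH : Convex ℝ H) {h : ℝ}
    (hv : ∀ p ∈ H, ∀ v, ‖v‖ = h → p + v ∈ H ∨ p - v ∈ H)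
    {g : X → Y} {A B : ℝ} (hh : 0 < h) (hB0 : 0 ≤ B) (hd : ∀ x ∈ H, DifferentiableAt ℝ g x)
    (hA : ∀ x ∈ H, ‖g x‖ ≤ A) {p : X} (hp : p ∈ H)
    (hB : ∀ x ∈ H, ‖fderiv ℝ g x - fderiv ℝ g p‖ ≤ B * ‖x - p‖) :
    ‖fderiv ℝ g p‖ ≤ 2 * A / h + B * h := by
  have ha0 : 0 ≤ A := (norm_nonneg _).trans (hA p hp)
  have key : ∀ w, ‖w‖ = h → p + w ∈ H → ‖fderiv ℝ g p w‖ ≤ 2 * A + B * h * h := fun w hw hq => by
    have h1 := (hH.inter (convex_closedBall p h)).norm_image_sub_le_of_norm_fderiv_le' (C := B * h)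
      (fun x hx => hd x hx.1) (fun x hx => (hB x hx.1).trans
        (mul_le_mul_of_nonneg_left (mem_closedBall_iff_norm.1 hx.2) hB0))
      ⟨hp, mem_closedBall_self hh.le⟩ ⟨hq, by rw [mem_closedBall_iff_norm, add_sub_cancel_left, hw]⟩
    rw [add_sub_cancel_left, hw] at h1
    have : fderiv ℝ g p w = g (p + w) - g p - (g (p + w) - g p - fderiv ℝ g p w) := by abel
    rw [this]
    have h3 := norm_sub_le (g (p + w) - g p) (g (p + w) - g p - fderiv ℝ g p w)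
    have h4 := norm_sub_le (g (p + w)) (g p)
    linarith [hA _ hq, hA _ hp]
  refine ContinuousLinearMap.opNorm_le_bound _ (by positivity) fun v => ?_
  rcases eq_or_ne v 0 with rfl | hv0
  · simp
  have hv0 : 0 < ‖v‖ := norm_pos_iff.2 hv0
  set w := (h / ‖v‖) • v with hw
  have hwn : ‖w‖ = h := by
    rw [hw, norm_smul, Real.norm_eq_abs, abs_of_pos (by positivity)]; field_simp
  have h2 : ‖fderiv ℝ g p w‖ ≤ 2 * A + B * h * h := by
    rcases hv p hp w hwn with h1 | h1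
    · exact key w hwn h1
    · have := key (-w) (by rwa [norm_neg]) (by rwa [← sub_eq_add_neg])
      rwa [map_neg, norm_neg] at this
  rw [hw, map_smul, norm_smul, Real.norm_eq_abs, abs_of_pos (by positivity)] at h2
  rw [div_mul_eq_mul_div, div_le_iff₀ hv0] at h2
  rw [← mul_le_mul_iff_right₀ hh]
  calc h * ‖fderiv ℝ g p v‖ ≤ (2 * A + B * h * h) * ‖v‖ := h2
    _ = h * ((2 * A / h + B * h) * ‖v‖) := by field_simp

theorem landau_jet {H : Set X} (hH : Convex ℝ H) {h : ℝ}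
    (hv : ∀ p ∈ H, ∀ v, ‖v‖ = h → p + v ∈ H ∨ p - v ∈ H)
    {f : X → Y} (hf : ∀ x ∈ H, ContDiffAt ℝ ∞ f x) (k : ℕ) {A B : ℝ} (hh : 0 < h)
    (hA : ∀ x ∈ H, ‖iteratedFDeriv ℝ k f x‖ ≤ A) (hB : ∀ x ∈ H, ‖iteratedFDeriv ℝ (k + 2) f x‖ ≤ B)
    {p : X} (hp : p ∈ H) : ‖iteratedFDeriv ℝ (k + 1) f p‖ ≤ 2 * A / h + B * h := by
  have hdk : ∀ j : ℕ, ∀ x ∈ H, DifferentiableAt ℝ (iteratedFDeriv ℝ j f) x := fun j x hx =>
    (hf x hx).differentiableAt_iteratedFDeriv (by exact_mod_cast ENat.natCast_lt_top j)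
  rw [← norm_fderiv_iteratedFDeriv]
  refine landau_loc hH hv hh ((norm_nonneg _).trans (hB p hp)) (hdk k) hA hp fun x hx => ?_
  have h1 := hH.norm_image_sub_le_of_norm_fderiv_le (hdk (k + 1))
    (fun x hx => norm_fderiv_iteratedFDeriv.trans_le (hB x hx)) hp hx
  have h2 : ∀ z, fderiv ℝ (iteratedFDeriv ℝ k f) z =
      continuousMultilinearCurryLeftEquiv ℝ (fun _ : Fin (k + 1) => X) Y
        (iteratedFDeriv ℝ (k + 1) f z) := fun z => by
    rw [fderiv_iteratedFDeriv]; rfl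
  rwa [h2, h2, ← dist_eq_norm, LinearIsometryEquiv.dist_map, dist_eq_norm]

section abstract

variable {α β : Type} {H : α → Set β} {D : ℕ → β → ℝ}

theorem one_all (hb : ∀ j, ∃ C : ℝ, 0 < C ∧ ∀ a, ∀ q ∈ H a, D j q ≤ C)
    (hl : ∀ j a (A B h : ℝ), 0 < h → h ≤ 1 → (∀ q ∈ H a, D j q ≤ A) →
      (∀ q ∈ H a, D (j + 2) q ≤ B) → ∀ q ∈ H a, D (j + 1) q ≤ 2 * A / h + B * h) (n : ℕ) :
    Ra.One H D (n / (n + 2)) := by
  induction n with
  | zero =>
    intro j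
    obtain ⟨C, h0, hC⟩ := hb (j + 1)
    exact ⟨C, h0, fun a μ _ _ q hq => by simpa using hC a q hq⟩
  | succ n ih =>
    intro j
    obtain ⟨C0, h0, hC0⟩ := hb (j + 1)
    obtain ⟨C1, h1, hC1⟩ := ih j
    obtain ⟨C2, h2, hC2⟩ := ih (j + 1)
    set θ : ℝ := n / (n + 2) with hθ
    have hn : (0 : ℝ) ≤ n := n.cast_nonneg
    have hθ0 : 0 ≤ θ := by positivity
    have hθ1 : θ ≤ 1 := by rw [hθ, div_le_one (by positivity)]; linarith
    refine ⟨C0 + (2 + C2 * C1 ^ θ), by positivity, fun a μ hμ hq q hqa => ?_⟩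
    have hp : 0 < μ ^ (((n + 1 : ℕ) : ℝ) / ((n + 1 : ℕ) + 2)) := by positivity
    have hp2 : 0 < 2 + C2 * C1 ^ θ := by positivity
    rcases le_total 1 μ with hμ1 | hμ1
    · have : 1 ≤ μ ^ (((n + 1 : ℕ) : ℝ) / ((n + 1 : ℕ) + 2)) := Real.one_le_rpow hμ1 (by positivity)
      nlinarith [hC0 a q hqa]
    have h3 := hl j a μ _ (μ ^ ((1 - θ * θ) / 2)) (by positivity)
      (Real.rpow_le_one hμ.le hμ1 (by nlinarith)) hq
      (hC2 a _ (by positivity) (hC1 a μ hμ hq)) q hqa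
    have e1 : 2 * μ / μ ^ ((1 - θ * θ) / 2) = 2 * μ ^ ((1 + θ * θ) / 2) := by
      rw [div_eq_iff (by positivity), mul_assoc, ← Real.rpow_add hμ,
        show (1 + θ * θ) / 2 + (1 - θ * θ) / 2 = 1 by ring, Real.rpow_one]
    have e2 : C2 * (C1 * μ ^ θ) ^ θ * μ ^ ((1 - θ * θ) / 2) = C2 * C1 ^ θ * μ ^ ((1 + θ * θ) / 2) := by
      rw [Real.mul_rpow h1.le (by positivity), ← Real.rpow_mul hμ.le, mul_assoc, mul_assoc,
        ← Real.rpow_add hμ, show θ * θ + (1 - θ * θ) / 2 = (1 + θ * θ) / 2 by ring, mul_assoc]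
    have h4 : μ ^ ((1 + θ * θ) / 2) ≤ μ ^ (((n + 1 : ℕ) : ℝ) / ((n + 1 : ℕ) + 2)) := by
      refine Real.rpow_le_rpow_of_exponent_ge hμ hμ1 ?_
      rw [hθ, div_mul_div_comm, div_le_div_iff₀ (by positivity) two_pos, one_add_div (by positivity),
        div_mul_eq_mul_div, le_div_iff₀ (by positivity)]
      push_cast
      nlinarith [mul_nonneg hn hn]
    rw [e1, e2] at h3
    nlinarith [mul_le_mul_of_nonneg_left h4 hp2.le]

theorem interp_abs (hb : ∀ j, ∃ C : ℝ, 0 < C ∧ ∀ a, ∀ q ∈ H a, D j q ≤ C)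
    (hl : ∀ j a (A B h : ℝ), 0 < h → h ≤ 1 → (∀ q ∈ H a, D j q ≤ A) →
      (∀ q ∈ H a, D (j + 2) q ≤ B) → ∀ q ∈ H a, D (j + 1) q ≤ 2 * A / h + B * h)
    {θ : ℝ} (hθ : θ < 1) (j : ℕ) :
    ∃ C : ℝ, 0 < C ∧ ∀ a, ∀ μ : ℝ, 0 < μ → μ ≤ 1 → (∀ q ∈ H a, D 0 q ≤ μ) →
      ∀ q ∈ H a, D j q ≤ C * μ ^ θ := by
  obtain ⟨n, hn⟩ := exists_nat_ge (2 * j / (1 - θ))
  obtain ⟨C, h0, hC⟩ := (one_all hb hl n).iter j
  refine ⟨C, h0, fun a μ hμ hμ1 hq q hqa => (hC a μ hμ hq q hqa).trans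
    (mul_le_mul_of_nonneg_left (Real.rpow_le_rpow_of_exponent_ge hμ hμ1 ?_) h0.le)⟩
  have hn0 : (0 : ℝ) ≤ n := n.cast_nonneg
  have h1 := one_add_mul_le_pow (a := -(2 / ((n : ℝ) + 2))) (by
    have : 2 / ((n : ℝ) + 2) ≤ 2 := by rw [div_le_iff₀ (by positivity)]; linarith
    linarith) j
  rw [show 1 + -(2 / ((n : ℝ) + 2)) = n / (n + 2) by field_simp; ring] at h1
  have h2 : j * (2 / ((n : ℝ) + 2)) ≤ 1 - θ := by
    rw [div_le_iff₀ (by linarith)] at hn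
    rw [← mul_div_assoc, div_le_iff₀ (by positivity)]
    nlinarith
  linarith

end abstract

/-- interpolation on the strip `(a, b) × ℝ` for a family with uniformly bounded jets -/
theorem interp_strip {P : Type} {U : Set P} {f : P → ℝ × ℝ → Y} {a b : ℝ} (hab : a < b)
    (hf : ∀ p ∈ U, ∀ y : ℝ × ℝ, y.1 ∈ Ioo a b → ContDiffAt ℝ ∞ (f p) y)
    (hb : ∀ j, ∃ C : ℝ, ∀ p ∈ U, ∀ y : ℝ × ℝ, y.1 ∈ Ioo a b → ‖iteratedFDeriv ℝ j (f p) y‖ ≤ C)
    {θ : ℝ} (hθ : θ < 1) (j : ℕ) :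
    ∃ C : ℝ, 0 < C ∧ ∀ p ∈ U, ∀ μ : ℝ, 0 < μ → μ ≤ 1 →
      (∀ y : ℝ × ℝ, y.1 ∈ Ioo a b → ‖f p y‖ ≤ μ) →
      ∀ y : ℝ × ℝ, y.1 ∈ Ioo a b → ‖iteratedFDeriv ℝ j (f p) y‖ ≤ C * μ ^ θ := by
  set w := (b - a) / 3 with hw
  have hw0 : 0 < w := by rw [hw]; linarith
  obtain ⟨C, h0, hC⟩ := interp_abs (H := fun p : U => {q : P × (ℝ × ℝ) | q.1 = p ∧ q.2.1 ∈ Ioo a b})
    (D := fun j q => w ^ j * ‖iteratedFDeriv ℝ j (f q.1) q.2‖) (fun j => by
      obtain ⟨C, hC⟩ := hb j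
      refine ⟨w ^ j * max C 1, by positivity, fun p q hq => ?_⟩
      have := hC q.1 (hq.1 ▸ p.2) q.2 hq.2
      exact mul_le_mul_of_nonneg_left (this.trans (le_max_left _ _)) (by positivity))
    (fun j p A B h hh hh1 hA hB q hq => by
      have hc : Convex ℝ {y : ℝ × ℝ | y.1 ∈ Ioo a b} :=
        (convex_Ioo a b).is_linear_preimage (LinearMap.fst ℝ ℝ ℝ).isLinear
      have := landau_jet (H := {y : ℝ × ℝ | y.1 ∈ Ioo a b}) hc (h := h * w) (f := f p)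
        (A := A / w ^ j) (B := B / w ^ (j + 2)) (fun y hy v hv => by
          have h1 : |v.1| ≤ h * w := hv ▸ norm_fst_le v
          have h2 : h * w ≤ w := by nlinarith
          obtain ⟨h3, h4⟩ := abs_le.1 h1
          simp only [mem_ofPred_eq, Prod.fst_add, Prod.fst_sub, mem_Ioo] at hy ⊢
          rcases le_total y.1 ((a + b) / 2) with h5 | h5 <;> rcases le_total 0 v.1 with h6 | h6
          · left; constructor <;> linarith
          · right; constructor <;> linarith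
          · right; constructor <;> linarith
          · left; constructor <;> linarith)
        (fun y hy => hf p p.2 y hy) j (by positivity)
        (fun y hy => by
          rw [le_div_iff₀ (by positivity), mul_comm]; exact hA (p, y) ⟨rfl, hy⟩)
        (fun y hy => by
          rw [le_div_iff₀ (by positivity), mul_comm]; exact hB (p, y) ⟨rfl, hy⟩) hq.2
      rw [hq.1]
      refine (mul_le_mul_of_nonneg_left this (by positivity)).trans (le_of_eq ?_)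
      field_simp
      ring) hθ j
  refine ⟨C / w ^ j, by positivity, fun p hp μ hμ hμ1 hq y hy => ?_⟩
  have := hC ⟨p, hp⟩ μ hμ hμ1 (fun q hq' => by
    rw [hq'.1]; simpa using hq q.2 hq'.2) (p, y) ⟨rfl, hy⟩
  rw [div_mul_eq_mul_div, le_div_iff₀ (by positivity), mul_comm]
  exact this

end Crest.Agent.N250.Em
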