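import Crest.Agent.N250.Em.Int

/-!
# Row 250 (helper4): families of functions on a strip with uniformly bounded jets
-/

set_option autoImplicit false

open Set Filter Metric
open scoped Topology ContDiff

namespace Crest.Agent.N250.Em

variable {P Q : Type} {U : Set P} {a b : ℝ} {f g : P → ℝ × ℝ → ℂ}

/-- smooth on `(a, b) × ℝ`, all jets bounded uniformly in the parameter -/
structure UB (U : Set P) (a b : ℝ) (f : P → ℝ × ℝ → ℂ) : Prop where
  sm : ∀ p ∈ U, ∀ y : ℝ × ℝ, y.1 ∈ Ioo a b → ContDiffAt ℝ ∞ (f p) y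
  bd : ∀ j, ∃ C : ℝ, ∀ p ∈ U, ∀ y : ℝ × ℝ, y.1 ∈ Ioo a b → ‖iteratedFDeriv ℝ j (f p) y‖ ≤ C

theorem isOpen_strip (a b : ℝ) : IsOpen {y : ℝ × ℝ | y.1 ∈ Ioo a b} :=
  isOpen_Ioo.preimage continuous_fst

namespace UB

theorem contDiffOn (h : UB U a b f) {p : P} (hp : p ∈ U) :
    ContDiffOn ℝ ∞ (f p) (Ioo a b ×ˢ univ) := fun y hy => (h.sm p hp y hy.1).contDiffWithinAt

theorem par (h : UB U a b f) {V : Set Q} {φ : Q → P} (hφ : MapsTo φ V U) :
    UB V a b fun q => f (φ q) :=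
  ⟨fun _ hq => h.sm _ (hφ hq), fun j => (h.bd j).imp fun _ hC _ hq => hC _ (hφ hq)⟩

theorem mono (h : UB U a b f) {a' b' : ℝ} (ha : a ≤ a') (hb : b' ≤ b) : UB U a' b' f :=
  ⟨fun p hp y hy => h.sm p hp y (Ioo_subset_Ioo ha hb hy),
    fun j => (h.bd j).imp fun _ hC p hp y hy => hC p hp y (Ioo_subset_Ioo ha hb hy)⟩

theorem congr (h : UB U a b f) (e : ∀ p ∈ U, ∀ y : ℝ × ℝ, y.1 ∈ Ioo a b → g p y = f p y) :
    UB U a b g := by
  have ev : ∀ p ∈ U, ∀ y : ℝ × ℝ, y.1 ∈ Ioo a b → g p =ᶠ[𝓝 y] f p := fun p hp y hy => by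
    filter_upwards [(isOpen_strip a b).mem_nhds hy] with z hz using e p hp z hz
  refine ⟨fun p hp y hy => (h.sm p hp y hy).congr_of_eventuallyEq (ev p hp y hy), fun j => ?_⟩
  obtain ⟨C, hC⟩ := h.bd j
  exact ⟨C, fun p hp y hy => by
    rw [((ev p hp y hy).iteratedFDeriv ℝ j).eq_of_nhds]; exact hC p hp y hy⟩

theorem sub (h : UB U a b f) (k : UB U a b g) : UB U a b fun p y => f p y - g p y := by
  refine ⟨fun p hp y hy => (h.sm p hp y hy).sub (k.sm p hp y hy), fun j => ?_⟩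
  obtain ⟨C, hC⟩ := h.bd j
  obtain ⟨D, hD⟩ := k.bd j
  refine ⟨C + D, fun p hp y hy => ?_⟩
  have e := iteratedFDeriv_sub_apply (𝕜 := ℝ) (i := j) (f := f p) (g := g p)
    ((h.sm p hp y hy).of_le (by exact_mod_cast le_top)) ((k.sm p hp y hy).of_le (by exact_mod_cast le_top))
  have e' : (fun y => f p y - g p y) = f p - g p := rfl
  rw [e', e]
  exact norm_sub_le_of_le (hC p hp y hy) (hD p hp y hy)

/-- composition with a smooth function of the value -/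
theorem comp (h : UB U a b f) {φ : ℂ → ℂ} {t K : Set ℂ} (ht : IsOpen t) (hK : IsCompact K)
    (hKt : K ⊆ t) (hφ : ContDiffOn ℝ ∞ φ t) (hf : ∀ p ∈ U, ∀ y : ℝ × ℝ, y.1 ∈ Ioo a b → f p y ∈ K) :
    UB U a b fun p y => φ (f p y) := by
  refine ⟨fun p hp y hy => (hφ.contDiffAt (ht.mem_nhds (hKt (hf p hp y hy)))).comp y
    (h.sm p hp y hy), fun n => ?_⟩
  have h1 : ∀ i : ℕ, ∃ C, ∀ z ∈ K, ‖iteratedFDerivWithin ℝ i φ t z‖ ≤ C := fun i =>
    hK.exists_bound_of_continuousOn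
      ((hφ.continuousOn_iteratedFDerivWithin (by exact_mod_cast le_top) ht.uniqueDiffOn).mono hKt)
  choose C hC using h1
  choose D hD using h.bd
  set C0 : ℝ := ∑ i ∈ Finset.range (n + 1), |C i|
  set D0 : ℝ := 1 + ∑ i ∈ Finset.range (n + 1), |D i|
  have hD0 : 1 ≤ D0 := le_add_of_nonneg_right (Finset.sum_nonneg fun _ _ => abs_nonneg _)
  refine ⟨n.factorial * C0 * D0 ^ n, fun p hp y hy => ?_⟩
  have ho := isOpen_strip a b
  have := norm_iteratedFDerivWithin_comp_le (𝕜 := ℝ) (g := φ) (f := f p) (n := n) (N := ∞)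
    (s := {y : ℝ × ℝ | y.1 ∈ Ioo a b}) (t := t) (x := y) hφ
    (fun z hz => (h.sm p hp z hz).contDiffWithinAt) (by exact_mod_cast le_top) ht.uniqueDiffOn
    ho.uniqueDiffOn (fun z hz => hKt (hf p hp z hz)) hy (C := C0) (D := D0)
    (fun i hi => (hC i _ (hf p hp y hy)).trans ((le_abs_self _).trans
      (Finset.single_le_sum (f := fun i => |C i|) (fun _ _ => abs_nonneg _)
        (Finset.mem_range.2 (Nat.lt_succ_of_le hi)))))
    (fun i h1 hi => by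
      rw [iteratedFDerivWithin_of_isOpen i ho hy]
      refine (hD i p hp y hy).trans ((le_abs_self _).trans (le_trans ?_ (le_self_pow₀ hD0 (by omega))))
      have := Finset.single_le_sum (f := fun i => |D i|) (fun _ _ => abs_nonneg _)
        (Finset.mem_range.2 (Nat.lt_succ_of_le hi))
      linarith)
  rwa [iteratedFDerivWithin_of_isOpen n ho hy] at this

/-- a fixed function -/
theorem const {r : ℝ × ℝ → ℂ} (h1 : ∀ y : ℝ × ℝ, y.1 ∈ Ioo a b → ContDiffAt ℝ ∞ r y)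
    (h2 : ∀ j, ∃ C : ℝ, ∀ y : ℝ × ℝ, y.1 ∈ Ioo a b → ‖iteratedFDeriv ℝ j r y‖ ≤ C) :
    UB U a b fun _ => r :=
  ⟨fun _ _ => h1, fun j => (h2 j).imp fun _ hC _ _ => hC⟩

/-- differences of two members -/
theorem pair (h : UB U a b f) : UB (U ×ˢ U) a b fun q y => f q.1 y - f q.2 y :=
  (h.par (φ := Prod.fst) fun _ hq => hq.1).sub (h.par (φ := Prod.snd) fun _ hq => hq.2)

/-- small in `C⁰` implies small in `C^∞` -/
theorem interp (h : UB U a b f) (hab : a < b) {θ : ℝ} (hθ : θ < 1) : ∃ c : ℕ → NNReal,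
    ∀ p ∈ U, ∀ μ : ℝ, 0 < μ → μ ≤ 1 → (∀ y : ℝ × ℝ, y.1 ∈ Ioo a b → ‖f p y‖ ≤ μ) →
      ∀ j, ∀ y : ℝ × ℝ, y.1 ∈ Ioo a b → ‖iteratedFDeriv ℝ j (f p) y‖ ≤ μ ^ θ * c j := by
  choose C h0 hC using interp_strip hab h.sm h.bd hθ
  exact ⟨fun j => ⟨C j, (h0 j).le⟩, fun p hp μ h1 h2 h3 j y hy =>
    (hC j p hp μ h1 h2 h3 y hy).trans_eq (mul_comm _ _)⟩

theorem bdd (h : UB U a b f) : ∃ c : ℕ → NNReal,
    ∀ p ∈ U, ∀ j, ∀ y : ℝ × ℝ, y.1 ∈ Ioo a b → ‖iteratedFDeriv ℝ j (f p) y‖ ≤ c j := by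
  choose C hC using h.bd
  exact ⟨fun j => ⟨max (C j) 0, le_max_right _ _⟩, fun p hp j y hy =>
    (hC j p hp y hy).trans (le_max_left _ _)⟩

end UB

/-- a smooth periodic function has bounded jets on compact strips -/
theorem bd_of_per {r : ℝ × ℝ → ℂ} {s : Set ℝ} (hs : IsOpen s) (h : ContDiffOn ℝ ∞ r (s ×ˢ univ))
    (hp : ∀ x θ, r (x, θ + 2 * Real.pi) = r (x, θ)) (hab : Icc a b ⊆ s) (j : ℕ) :
    ∃ C : ℝ, ∀ y : ℝ × ℝ, y.1 ∈ Icc a b → ‖iteratedFDeriv ℝ j r y‖ ≤ C := by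
  have ho : IsOpen (s ×ˢ (univ : Set ℝ)) := hs.prod isOpen_univ
  have hc : ContinuousOn (iteratedFDeriv ℝ j r) (s ×ˢ univ) :=
    (h.continuousOn_iteratedFDerivWithin (m := j) (by exact_mod_cast le_top) ho.uniqueDiffOn).congr
      fun y hy => (iteratedFDerivWithin_of_isOpen j ho hy).symm
  obtain ⟨C, hC⟩ := (isCompact_Icc.prod (isCompact_Icc (a := 0) (b := 2 * Real.pi))).exists_bound_of_continuousOn
    (hc.mono (prod_mono hab (subset_univ _)))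
  have hper : ∀ x, Function.Periodic (fun θ => iteratedFDeriv ℝ j r (x, θ)) (2 * Real.pi) := by
    intro x θ
    have e : (fun z : ℝ × ℝ => r (z + (0, 2 * Real.pi))) = r := by
      funext z; rw [← hp z.1 z.2]; congr 1; ext <;> simp
    have := iteratedFDeriv_comp_add_right (𝕜 := ℝ) (f := r) j (0, 2 * Real.pi) (x, θ)
    rw [e] at this
    simpa using this.symm
  refine ⟨C, fun y hy => ?_⟩
  obtain ⟨θ, hθ, e⟩ := (hper y.1).exists_mem_Ico₀ Real.two_pi_pos y.2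
  have : iteratedFDeriv ℝ j r y = iteratedFDeriv ℝ j r (y.1, θ) := e
  rw [this]
  exact hC (y.1, θ) ⟨hy, Ico_subset_Icc_self hθ⟩

/-- `√(2 v)` -/
noncomputable def sq2 (v : ℂ) : ℂ := (2 * v) ^ (1 / 2 : ℂ)

theorem sq2_diff {v : ℂ} (hv : 0 < v.re) : DifferentiableAt ℂ sq2 v :=
  (differentiableAt_id.const_mul 2).cpow_const (Or.inl (by simpa using hv))

theorem sq2_contDiffOn : ContDiffOn ℝ ∞ sq2 {v | 0 < v.re} := by
  have ho : IsOpen {v : ℂ | 0 < v.re} := isOpen_lt continuous_const Complex.continuous_re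
  have : DifferentiableOn ℂ sq2 {v | 0 < v.re} := fun v hv => (sq2_diff hv).differentiableWithinAt
  exact ((this.contDiffOn ho (n := ∞)).restrict_scalars ℝ)

theorem sq2_sq (v : ℂ) : sq2 v ^ 2 = 2 * v := by
  have := Complex.cpow_nat_inv_pow (2 * v) (n := 2) two_ne_zero
  rw [sq2, one_div]; exact_mod_cast this

theorem sq2_conj {v : ℂ} (hv : 0 < v.re) : sq2 (starRingEnd ℂ v) = starRingEnd ℂ (sq2 v) := by
  have h : (2 * v).arg ≠ Real.pi := fun h => by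
    have := (Complex.arg_eq_pi_iff.1 h).1
    simp at this; linarith
  have := Complex.conj_cpow (2 * v) (1 / 2) h
  rw [sq2, sq2, show 2 * starRingEnd ℂ v = starRingEnd ℂ (2 * v) by simp [map_ofNat], this]
  simp [map_ofNat]

theorem sq2_ofReal {r : ℝ} (hr : 0 ≤ r) : sq2 ((r ^ 2 / 2 : ℝ) : ℂ) = r := by
  have e : (2 : ℂ) * ((r ^ 2 / 2 : ℝ) : ℂ) = ((r ^ 2 : ℝ) : ℂ) := by push_cast; ring
  rw [sq2, e, show (1 / 2 : ℂ) = ((1 / 2 : ℝ) : ℂ) by push_cast; rfl,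
    ← Complex.ofReal_cpow (by positivity), ← Real.sqrt_eq_rpow, Real.sqrt_sq hr]

/-- `√(2 v)` is Lipschitz on the half plane `1/8 ≤ Re v` -/
theorem sq2_lip {v w : ℂ} (hv : 1 / 8 ≤ v.re) (hw : 1 / 8 ≤ w.re) : ‖sq2 v - sq2 w‖ ≤ 2 * ‖v - w‖ := by
  have hd : ∀ z : ℂ, 1 / 8 ≤ z.re → HasDerivAt sq2 (sq2 z)⁻¹ z ∧ ‖(sq2 z)⁻¹‖ ≤ 2 := fun z hz => by
    have h0 : 0 < z.re := by linarith
    have h1 : ‖sq2 z‖ ^ 2 = 2 * ‖z‖ := by rw [← norm_pow, sq2_sq, norm_mul]; simp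
    have h2 := Complex.re_le_norm z
    have h3 : 1 / 2 ≤ ‖sq2 z‖ := by nlinarith [norm_nonneg (sq2 z)]
    have hne : sq2 z ≠ 0 := norm_pos_iff.1 (by linarith)
    refine ⟨?_, by rw [norm_inv]; exact inv_le_of_inv_le₀ two_pos (by linarith)⟩
    have h4 := (sq2_diff h0).hasDerivAt
    have h5 : HasDerivAt (fun z => sq2 z ^ 2) (2 * 1) z := by
      simp only [sq2_sq]; exact (hasDerivAt_id z).const_mul 2
    have h6 := (h4.pow 2).unique h5
    simp only [Nat.cast_ofNat, Nat.add_one_sub_one, pow_one] at h6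
    refine h4.congr_deriv (eq_inv_of_mul_eq_one_right ?_)
    linear_combination (1 / 2 : ℂ) * h6
  have hc : Convex ℝ {z : ℂ | 1 / 8 ≤ z.re} := convex_halfSpace_re_ge _
  exact hc.norm_image_sub_le_of_norm_hasDerivWithin_le (f' := fun z => (sq2 z)⁻¹)
    (fun z hz => (hd z hz).1.hasDerivWithinAt) (fun z hz => (hd z hz).2) hw hv

theorem UB.sq2 (h : UB U a b f) (hf : ∀ p ∈ U, ∀ y : ℝ × ℝ, y.1 ∈ Ioo a b → 1 / 8 ≤ (f p y).re) :
    UB U a b fun p y => sq2 (f p y) := by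
  obtain ⟨C, hC⟩ := h.bd 0
  refine h.comp (t := {v | 0 < v.re}) (K := closedBall 0 C ∩ {v | 1 / 8 ≤ v.re})
    (isOpen_lt continuous_const Complex.continuous_re)
    ((isCompact_closedBall 0 C).inter_right (isClosed_le continuous_const Complex.continuous_re))
    (fun v hv => lt_of_lt_of_le (by norm_num : (0 : ℝ) < 1 / 8) hv.2) sq2_contDiffOn fun p hp y hy =>
      ⟨mem_closedBall_zero_iff.2 (by simpa using hC p hp y hy), hf p hp y hy⟩

end Crest.Agent.N250.Em
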