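import Crest.Agent.N250.Em.Dr
import Crest.Agent.N250.Em.UB
import Crest.Agent.N250.Ce.Close
import Crest.Agent.N250.Ch.Op
import Crest.Agent.N250.B1.DomO
import Crest.Agent.N250.Wt.Hol1
import Crest.Agent.N250.Ra.Fou

/-!
# Row 250 (helper4): readings of the end family (Floer norm, modes at `x = R`)
-/

set_option autoImplicit false
open Set Filter Topology Metric Complex
open scoped ContDiff NNReal

noncomputable section

namespace Crest.Agent.N250.Em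

open B1

/-- holomorphic values and bounded jets give holomorphic jets -/
theorem UB.hol {P : Type} [NormedAddCommGroup P] [NormedSpace ℂ P] {V : Set P} {a b : ℝ}
    {f : P → ℝ × ℝ → ℂ} (h : UB V a b f) (hV : IsOpen V)
    (hd : ∀ y : ℝ × ℝ, y.1 ∈ Ioo a b → DifferentiableOn ℂ (fun p => f p y) V) (j : ℕ) :
    ∀ y : ℝ × ℝ, y.1 ∈ Ioo a b → ∀ m,
      DifferentiableOn ℂ (fun p => iteratedFDeriv ℝ j (f p) y m) V := by
  induction j with
  | zero => exact fun y hy _ => hd y hy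
  | succ j ih =>
    intro y hy m
    obtain ⟨C, hC⟩ := h.bd (j + 1)
    have hs := isOpen_strip a b
    have hcv : Convex ℝ {y : ℝ × ℝ | y.1 ∈ Ioo a b} :=
      (convex_Ioo a b).linear_preimage (LinearMap.fst ℝ ℝ ℝ)
    have hD : ∀ p ∈ V, ∀ z : ℝ × ℝ, z.1 ∈ Ioo a b →
        DifferentiableAt ℝ (iteratedFDeriv ℝ j (f p)) z := fun p hp z hz =>
      (h.sm p hp z hz).differentiableAt_iteratedFDeriv (by exact_mod_cast ENat.natCast_lt_top j)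
    have hline : ∀ t : ℝ, HasDerivAt (fun t : ℝ => y + t • m 0) (m 0) t := fun t => by
      simpa using ((hasDerivAt_id t).smul_const (m 0)).const_add y
    have ev : ∀ᶠ t : ℝ in 𝓝 0, (y + t • m 0).1 ∈ Ioo a b :=
      (hline 0).continuousAt.eventually (hs.mem_nhds (by simpa using hy))
    refine WS.Hol.diffOn_of_ptlim (l := 𝓝[≠] (0 : ℝ)) (M := C * ‖m 0‖ * ∏ i, ‖Fin.tail m i‖)
      (F := fun t p => t⁻¹ • (iteratedFDeriv ℝ j (f p) (y + t • m 0) (Fin.tail m) -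
        iteratedFDeriv ℝ j (f p) y (Fin.tail m))) hV ?_ fun p hp => ?_
    · filter_upwards [ev.filter_mono nhdsWithin_le_nhds, self_mem_nhdsWithin] with t ht h0
      refine ⟨((ih _ ht (Fin.tail m)).sub (ih y hy (Fin.tail m))).const_smul t⁻¹, fun p hp => ?_⟩
      have k := hcv.norm_image_sub_le_of_norm_fderiv_le (f := iteratedFDeriv ℝ j (f p)) (C := C)
        (hD p hp) (fun z hz => by rw [norm_fderiv_iteratedFDeriv]; exact hC p hp z hz) hy ht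
      have t0 : 0 < |t| := abs_pos.2 h0
      rw [add_sub_cancel_left, norm_smul, Real.norm_eq_abs] at k
      rw [← sub_apply, norm_smul, norm_inv, Real.norm_eq_abs,
        inv_mul_le_iff₀ t0]
      refine (ContinuousMultilinearMap.le_opNorm _ _).trans ?_
      calc _ ≤ C * (|t| * ‖m 0‖) * ∏ i, ‖Fin.tail m i‖ := by gcongr
        _ = _ := by ring
    · have h1 := (hD p hp y hy).hasFDerivAt
      rw [← show y + (0 : ℝ) • m 0 = y by simp] at h1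
      have h2 := (ContinuousMultilinearMap.apply ℝ (fun _ : Fin j => ℝ × ℝ) ℂ
        (Fin.tail m)).hasFDerivAt.comp_hasDerivAt 0 (h1.comp_hasDerivAt 0 (hline 0))
      have h3 := h2.tendsto_slope_zero
      simpa [iteratedFDeriv_succ_apply_left] using h3

theorem UB.interp' {P : Type} {V : Set P} {a b : ℝ} {f : P → ℝ × ℝ → ℂ} (h : UB V a b f)
    (hab : a < b) {θ L : ℝ} (h0 : 0 ≤ θ) (hθ : θ < 1) (hL : 0 < L) : ∃ c : ℕ → ℝ≥0,
    ∀ p ∈ V, ∀ μ : ℝ, 0 < μ → (∀ y : ℝ × ℝ, y.1 ∈ Ioo a b → ‖f p y‖ ≤ L * μ) →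
      ∀ j, ∀ y : ℝ × ℝ, y.1 ∈ Ioo a b → ‖iteratedFDeriv ℝ j (f p) y‖ ≤ μ ^ θ * c j := by
  obtain ⟨c, hc⟩ := h.interp hab hθ
  obtain ⟨d, hd⟩ := h.bdd
  refine ⟨fun j => ⟨L ^ θ, by positivity⟩ * (c j + d j), fun p hp μ hμ hf j y hy => ?_⟩
  have e : μ ^ θ * (L ^ θ * (c j + d j)) = (L * μ) ^ θ * (c j + d j) := by
    rw [Real.mul_rpow hL.le hμ.le]; ring
  change _ ≤ μ ^ θ * (L ^ θ * (c j + d j))
  rw [e]
  have p0 : 0 ≤ (L * μ) ^ θ := by positivity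
  rcases le_total (L * μ) 1 with h1 | h1
  · exact (hc p hp _ (by positivity) h1 hf j y hy).trans (by gcongr; simp)
  · have := Real.one_le_rpow h1 h0
    nlinarith [hd p hp j y hy, (c j).coe_nonneg, (d j).coe_nonneg]

variable {ℓ : Ell} {U : Par ℓ → Jt ℓ} {R K ε ε1 C0 Ch c CD C c0 : ℝ}

/-- the domain of the family -/
abbrev DD (ℓ : Ell) (R K ε : ℝ) : Set (Par ℓ) := Dom R K (13 / 8) (7 / 4) ε

/-- the profile `√(2 v) - r` on the strip -/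
def prof (U : Par ℓ → Jt ℓ) (R : ℝ) (r : ℝ × ℝ → ℂ) (z : Par ℓ) (y : ℝ × ℝ) : ℂ :=
  sq2 (vS R z (U z) y) - r y

/-- a reference function on the strip `(a, b)` -/
structure Rf (r : ℝ × ℝ → ℂ) (a b : ℝ) : Prop where
  sm : ∀ y : ℝ × ℝ, y.1 ∈ Ioo a b → ContDiffAt ℝ ∞ r y
  bd : ∀ j, ∃ C : ℝ, ∀ y : ℝ × ℝ, y.1 ∈ Ioo a b → ‖iteratedFDeriv ℝ j r y‖ ≤ C
  per : Po.Per r

theorem rf_of {r : ℝ × ℝ → ℂ} {a b : ℝ} {s : Set ℝ} (h : EC.Ok s r) (hs : IsOpen s)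
    (hab : Icc a b ⊆ s) : Rf r a b :=
  ⟨fun _ hy => h.sm.contDiffAt ((hs.prod isOpen_univ).mem_nhds
    ⟨hab (Ioo_subset_Icc_self hy), trivial⟩), fun j => (bd_of_per hs h.sm h.per hab j).imp
      fun _ hC y hy => hC y (Ioo_subset_Icc_self hy), h.per⟩

theorem xc_vS {X X' N : ℝ} {a a' : ℂ} {D D' : Dat ℓ} {J J' : Jt ℓ} (hR : 1 ≤ R) (hX : R + 2 ≤ X)
    (hX' : X ≤ X') (hN : 0 ≤ N) (h : Xc R X X' (vJ R X' a' J') (vJ R X a J) N) {y : ℝ × ℝ}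
    (hy : y.1 ∈ Icc R (R + 1)) :
    ‖vS R ((X' : ℂ), a', D') J' y - vS R ((X : ℂ), a, D) J y‖ ≤ (R + 1) ^ 3 * N := by
  have k := Ce.xc_val h hR hX hX' (s' := tS R y.1) (s := tS R y.1)
    (by rw [xr_tS _ hy, xr_tS _ hy]) y.2 0
  rw [Ce.val_vJ, Ce.val_vJ, xr_tS _ hy] at k
  refine le_trans k ?_
  have h1 : 1 ≤ y.1 := hR.trans hy.1
  have h2 : y.1 ^ (7 / 8 : ℝ) ≤ R + 1 :=
    (Real.rpow_le_self_of_one_le h1 (by norm_num)).trans hy.2
  calc _ ≤ N * ((R + 1) * (R + 1) ^ 2) := by gcongr; exact hy.2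
    _ = _ := by ring

namespace Fm

variable (F : Fm U R K ε ε1 C0 Ch c CD C c0) {a b : ℝ} {r : ℝ × ℝ → ℂ}
include F

theorem isOpen_DD : IsOpen (DD ℓ R K ε) := isOpen_Dom (by linarith [F.sz.hR]) F.K_pos

theorem re_vS {z : Par ℓ} (hz : z ∈ DD ℓ R K ε) {y : ℝ × ℝ} (hy : y.1 ∈ Icc R (R + 1)) :
    1 / 2 ≤ (vS R z (U z) y).re := by
  have S := F.sl hz
  have h1 := (Rg.reg_q F.sz.ex F.sz.hR F.sz.hK F.sz.he hz (Rg.IsJet.co3 S.sol.jet) S.inb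
    (tS R y.1) y.2).1
  rw [xr_tS _ hy] at h1
  have h2 := S.re_strip F.sz hy
  change _ ≤ (vj R z.1 z.2.1 (U z) (tS R y.1) y.2 0).re
  linarith

theorem strip (ha : R < a) (hb : b ≤ R + 1) : UB (DD ℓ R K ε) a b (fun z => vS R z (U z)) ∧
    ∀ j, ∀ y : ℝ × ℝ, y.1 ∈ Ioo a b → ∀ m,
      DifferentiableOn ℂ (fun z => iteratedFDeriv ℝ j (vS R z (U z)) y m) (DD ℓ R K ε) := by
  obtain ⟨h1, h2⟩ := F.isEnd.strip F.sz F.C0_nonneg F.sm' F.c0_pos F.hl (sub_pos.2 ha)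
  have m : ∀ y : ℝ × ℝ, y.1 ∈ Ioo a b → y ∈ oS R (a - R) := fun y hy =>
    ⟨⟨by linarith [hy.1], hy.2.trans_le hb⟩, trivial⟩
  exact ⟨⟨fun z hz y hy => (h1 z hz).contDiffAt ((isOpen_oS _ _).mem_nhds (m y hy)),
    fun j => (h2 j).1.imp fun _ hM z hz y hy => hM z hz y (m y hy)⟩,
    fun j y hy => (h2 j).2 y (m y hy)⟩

theorem ub_prof (ha : R < a) (hb : b ≤ R + 1) (hr : Rf r a b) :
    UB (DD ℓ R K ε) a b (prof U R r) :=
  ((F.strip ha hb).1.sq2 fun z hz y hy => le_trans (by norm_num)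
    (F.re_vS hz ⟨by linarith [hy.1], by linarith [hy.2]⟩)).sub (UB.const hr.sm hr.bd)

theorem ok_prof (ha : R < a) (hb : b ≤ R + 1) (hr : Rf r a b) {z : Par ℓ} (hz : z ∈ DD ℓ R K ε) :
    EC.Ok (Ioo a b) (prof U R r z) :=
  ⟨(F.ub_prof ha hb hr).contDiffOn hz, fun x θ => by rw [prof, prof, vS_per, hr.per]⟩

theorem hol_prof (ha : R < a) (hb : b ≤ R + 1) (hr : Rf r a b) (j : ℕ) :
    ∀ y : ℝ × ℝ, y.1 ∈ Ioo a b → ∀ m,
      DifferentiableOn ℂ (fun z => iteratedFDeriv ℝ j (prof U R r z) y m) (DD ℓ R K ε) :=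
  (F.ub_prof ha hb hr).hol F.isOpen_DD (fun y hy z hz => ((sq2_diff (lt_of_lt_of_le (by norm_num)
    (F.re_vS hz ⟨by linarith [hy.1], by linarith [hy.2]⟩))).comp_differentiableWithinAt z
      ((F.strip ha hb).2 0 y hy Fin.elim0 z hz)).sub_const _) j

end Fm

section AA

open WS EC
open Crest.GeometryTopology.MCF (E)

variable {Y : Type} [TopologicalSpace Y] [MeasurableSpace Y] [BorelSpace Y] {G : Geo Y}
  {Q : E ≃ₗᵢ[ℝ] E} {Kc : Set Y} {k : ℕ} {T : (ℝ × ℝ → ℂ) → G.SmC} {a b : ℝ} {r : ℝ × ℝ → ℂ}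

/-- the reading of the profile by the operator `T` in the Floer norm `σ` -/
structure RA (U : Par ℓ → Jt ℓ) (R K ε a b : ℝ) (r : ℝ × ℝ → ℂ) (T : (ℝ × ℝ → ℂ) → G.SmC)
    (σ : Scale G) (M A : ℝ) : Prop where
  rdg : Rdg U R K ε (fun z => toA σ (T (prof U R r z))) 0 M A
  val : ∀ z ∈ DD ℓ R K ε, σ.val (toA σ (T (prof U R r z))) = T (prof U R r z)
  small : ∀ z ∈ DD ℓ R K ε, ∀ μ : ℝ, 0 < μ → (∀ y : ℝ × ℝ, y.1 ∈ Ioo a b → ‖prof U R r z y‖ ≤ μ) →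
    ‖toA σ (T (prof U R r z))‖ ≤ A * μ ^ (65 / 66 : ℝ)

theorem Fm.ra (F : Fm U R K ε ε1 C0 Ch c CD C c0) (ha : R < a) (hab : a < b) (hb : b ≤ R + 1)
    (hr : Rf r a b) (Z : Zn G Q (Ioo a b) Kc) (hT : Op G Q (Ioo a b) Kc k T) (hK : IsCompact Kc) :
    ∀ᶠ e in admF, ∀ σ : Scale G, σ.ε = e → ∃ M A, RA U R K ε a b r T σ M A := by
  have hR := F.sz.hR
  have u := F.ub_prof ha hb hr
  obtain ⟨b1, h1⟩ := u.bdd
  obtain ⟨b2, h2⟩ := u.pair.interp' hab (θ := 65 / 66) (L := 2 * (R + 1) ^ 3) (by norm_num)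
    (by norm_num) (by positivity)
  obtain ⟨b3, h3⟩ := u.interp' hab (θ := 65 / 66) (by norm_num) (by norm_num) one_pos
  filter_upwards [hT.fit Z hK b1, hT.fit Z hK b2, hT.fit Z hK b3] with e f1 f2 f3 σ hσ
  subst hσ
  have ok := fun z hz => F.ok_prof ha hb hr (z := z) hz
  have jb : ∀ z ∈ DD ℓ R K ε, JB (Ioo a b) (fun j => (1 : ℝ≥0) * b1 j) (prof U R r z) :=
    fun z hz j y hy => by simpa using h1 z hz j y hy
  have hv := fun z hz => f1.val (ok z hz) (jb z hz)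
  obtain ⟨C1, -, k1⟩ := f1.norm_le
  obtain ⟨C2, p2, k2⟩ := f2.norm_le
  obtain ⟨C3, p3, k3⟩ := f3.norm_le
  refine ⟨C1 * (1 : ℝ≥0), C2 + C3, ⟨(f1.holo Z hT F.isOpen_DD ok jb (F.hol_prof ha hb hr)).mono
    inter_subset_left, fun z hz _ => k1 _ (ok z hz) _ (by simp) (jb z hz) _ (hv z hz), by positivity,
    fun X X' a₁ a' D D' N _ hX hN _ hz hz' hc => ?_⟩, hv, fun z hz μ hμ hs => ?_⟩
  · refine (k2 _ ((ok _ hz').sub (ok _ hz)) _ (by positivity) (h2 (_, _) ⟨hz', hz⟩ N hN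
      fun y hy => ?_) _ (by rw [map_sub, hv _ hz', hv _ hz, hT.map_sub Z (ok _ hz') (ok _ hz)])).trans
      (by gcongr; linarith)
    have hy' : y.1 ∈ Icc R (R + 1) := ⟨by linarith [hy.1], by linarith [hy.2]⟩
    have hX0 : 2 * R + 4 < X := hz.1
    simp only [prof, sub_sub_sub_cancel_right]
    refine (sq2_lip (le_trans (by norm_num) (F.re_vS hz' hy'))
      (le_trans (by norm_num) (F.re_vS hz hy'))).trans ?_
    rw [mul_assoc]
    gcongr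
    exact xc_vS (by linarith) (by linarith) hX hN.le hc hy'
  · exact (k3 _ (ok z hz) _ (by positivity) (h3 z hz μ hμ fun y hy => by simpa using hs y hy) _
      (hv z hz)).trans (by gcongr; linarith)

end AA

/-! ### algebra of readings -/

section alg

variable {W W' : Type*} [NormedAddCommGroup W] [NormedSpace ℂ W] [NormedAddCommGroup W']
  [NormedSpace ℂ W'] {E E₁ : Par ℓ → W} {E' : Par ℓ → W'}

/-- `E` is a reading -/
def RD (U : Par ℓ → Jt ℓ) (R K ε : ℝ) (E : Par ℓ → W) : Prop := ∃ M A, Rdg U R K ε E 0 M A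

theorem RD.congr (h : RD U R K ε E) (e : ∀ z ∈ DD ℓ R K ε, E₁ z = E z) : RD U R K ε E₁ := by
  obtain ⟨M, A, h⟩ := h
  exact ⟨M, A, h.hol.congr fun z hz => e z hz.1, fun z hz h0 => e z hz ▸ h.bd z hz h0, h.A_nonneg,
    fun X X' a a' D D' N h1 h2 h3 h4 hz hz' hc => by
      rw [e _ hz, e _ hz']; exact h.lip X X' a a' D D' N h1 h2 h3 h4 hz hz' hc⟩

theorem RD.clm (h : RD U R K ε E) (L : W →L[ℂ] W') : RD U R K ε fun z => L (E z) := by
  obtain ⟨M, A, h⟩ := h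
  exact ⟨‖L‖ * M, ‖L‖ * A, L.differentiable.comp_differentiableOn h.hol,
    fun z hz h0 => L.le_opNorm_of_le (h.bd z hz h0), mul_nonneg (norm_nonneg _) h.A_nonneg,
    fun X X' a a' D D' N h1 h2 h3 h4 hz hz' hc => by
      rw [← map_sub, mul_assoc]; exact L.le_opNorm_of_le (h.lip X X' a a' D D' N h1 h2 h3 h4 hz hz' hc)⟩

theorem RD.prod (h : RD U R K ε E) (h' : RD U R K ε E') : RD U R K ε fun z => (E z, E' z) := by
  obtain ⟨M, A, h⟩ := h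
  obtain ⟨M', A', h'⟩ := h'
  refine ⟨max M M', max A A', h.hol.prodMk h'.hol,
    fun z hz h0 => max_le_max (h.bd z hz h0) (h'.bd z hz h0), le_max_of_le_left h.A_nonneg,
    fun X X' a a' D D' N h1 h2 h3 h4 hz hz' hc => ?_⟩
  rw [max_mul_of_nonneg _ _ (by positivity)]
  exact max_le_max (h.lip X X' a a' D D' N h1 h2 h3 h4 hz hz' hc)
    (h'.lip X X' a a' D D' N h1 h2 h3 h4 hz hz' hc)

theorem RD.pi {ι : Type*} [Fintype ι] {E : Par ℓ → ι → W} (h : ∀ i, RD U R K ε fun z => E z i) :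
    RD U R K ε E := by
  choose M A h using h
  have s : ∀ (f : ι → ℝ) i, f i ≤ ∑ i, |f i| := fun f i => (le_abs_self _).trans
    (Finset.single_le_sum (f := fun i => |f i|) (fun _ _ => abs_nonneg _) (Finset.mem_univ i))
  exact ⟨∑ i, |M i|, ∑ i, |A i|, differentiableOn_pi.2 fun i => (h i).hol, fun z hz h0 =>
    (pi_norm_le_iff_of_nonneg (by positivity)).2 fun i => ((h i).bd z hz h0).trans (s M i),
    by positivity, fun X X' a a' D D' N h1 h2 h3 h4 hz hz' hc =>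
    (pi_norm_le_iff_of_nonneg (by positivity)).2 fun i =>
      ((h i).lip X X' a a' D D' N h1 h2 h3 h4 hz hz' hc).trans (by gcongr; exact s A i)⟩

end alg

/-! ### Fourier modes on a circle of the strip -/

theorem cont_vS (z : Par ℓ) (J : Jt ℓ) {x : ℝ} (hx : x ∈ Icc R (R + 1)) :
    Continuous fun θ => vS R z J (x, θ) :=
  ((rd_strip R z.1).cont_vk 0).comp_continuous (by fun_prop) fun _ => ⟨hx, trivial⟩

theorem fc_vS (z : Par ℓ) (J : Jt ℓ) {x : ℝ} (hx : x ∈ Icc R (R + 1)) (m : ℤ) :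
    Ra.fc (fun θ => vS R z J (x, θ)) m = Wi.co (vJ R z.1 z.2.1 J 0) m (tS R x) := by
  have h := Sm.integral_Sy ((rd_strip R z.1).md (vJ R z.1 z.2.1 J 0)) le_rfl hx m
  have e : ∀ θ, vS R z J (x, θ) = Sm.Sy 0 (Sm.md (tS R) (vJ R z.1 z.2.1 J 0)) (x, θ) := fun θ => by
    rw [← val_eq, Ce.val_vJ]; rfl
  have h2 : ((2 * Real.pi : ℝ) : ℂ) ≠ 0 := by exact_mod_cast Real.two_pi_pos.ne'
  simp only [Ra.fc, e]
  rw [h, pow_zero, one_mul, inv_mul_cancel_left₀ h2]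
  rfl

theorem fc_vS' (z : Par ℓ) (J : Jt ℓ) {x : ℝ} (hx : x ∈ Icc R (R + 1)) (m : ℤ) :
    Ra.fc (fun θ => vS R z J (x, θ)) m =
      Wi.co (J 0) m (tS R x) + if m = 0 then et z.2.1 x else 0 := by
  rw [fc_vS z J hx, vJ, Pi.add_apply, Wi.co_add, ContinuousMap.add_apply]
  congr 1
  change Wi.co (Wi.cst (om ℓ) (1 + (z.2.1 / 2) • (gam R z.1 ^ 2 - 2))) m (tS R x) = _
  rw [Wi.co_cst]
  split_ifs
  · change 1 + z.2.1 / 2 * (gam R z.1 (tS R x) ^ 2 - 2) = _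
    rw [(rd_strip R z.1).gam x hx, et]; ring
  · rfl

theorem Fm.bd_vS (F : Fm U R K ε ε1 C0 Ch c CD C c0) {z : Par ℓ} (hz : z ∈ DD ℓ R K ε) {y : ℝ × ℝ}
    (hy : y.1 ∈ Icc R (R + 1)) : ‖vS R z (U z) y‖ ≤ 3 := by
  have S := F.sl hz
  have h1 := Ce.val_bd F.sz.ex S.inb (S.pt F.sz (tS R y.1)) y.2 0
  have h2 := (S.pt' F.sz hy).norm_le
  rw [vS_eq z _ hy]
  linarith [norm_add_le (et z.2.1 y.1) (val (U z 0) (tS R y.1) y.2), F.sz.he]

theorem Fm.rd_fc (F : Fm U R K ε ε1 C0 Ch c CD C c0) {x : ℝ} (hx : x ∈ Icc R (R + 1)) {V : ℝ → ℂ}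
    (hV : Continuous V) (m : ℤ) :
    RD U R K ε fun z => Ra.fc (fun θ => vS R z (U z) (x, θ) - V θ) m := by
  have hR := F.sz.hR
  have e : ∀ z, Ra.fc (fun θ => vS R z (U z) (x, θ) - V θ) m =
      Ra.fc (fun θ => vS R z (U z) (x, θ)) m - Ra.fc V m := fun z => Ra.fc_sub (cont_vS _ _ hx) hV m
  simp only [e]
  refine ⟨3 + ‖Ra.fc V m‖, (R + 1) ^ 3, ?_, fun z hz _ => norm_sub_le_of_le
    (Ra.fc_norm_le (fun θ => F.bd_vS hz (y := (x, θ)) hx) m) le_rfl, by positivity,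
    fun X X' a a' D D' N _ h2 h3 h4 hz hz' hc => ?_⟩
  · simp only [fc_vS' _ _ hx]
    refine ((((Gi.coefL ℓ 0 m (tS R x)).differentiable.comp_differentiableOn F.isEnd.hol).mono
      inter_subset_left).add ?_).sub_const _
    split_ifs
    · unfold et; fun_prop
    · fun_prop
  · have hX0 : 2 * R + 4 < X := hz.1
    rw [sub_sub_sub_cancel_right, ← Ra.fc_sub (cont_vS _ _ hx) (cont_vS _ _ hx)]
    refine (Ra.fc_norm_le (fun θ => xc_vS (by linarith) (by linarith) h2 h3.le hc (y := (x, θ)) hx)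
      m).trans ?_
    gcongr
    exact Real.self_le_rpow_of_le_one h3.le h4 (by norm_num)

/-- the drift property for a given end solver -/
theorem fm_of (hD : DriftS) {Ch : ℝ} (hCh : 0 ≤ Ch) : ∃ R1 K1 c1 e0 : ℝ, 0 < c1 ∧ 0 < e0 ∧
    ∀ (ℓ : Ell) (R K c0 ε ε1 C0 : ℝ) (U : Par ℓ → Jt ℓ), R1 ≤ R → K1 ≤ K → 0 < c0 → c0 ≤ c1 →
      ε1 ≤ e0 → 0 < ε → 0 ≤ C0 → C0 * (3 / K + ε) ≤ ε1 / 4 → (∀ m : ℤ, ℓ.l m = |c0 / R| * |(m : ℝ)|) →
      IsEnd R K (13 / 8) (7 / 4) ε ε1 C0 ℓ U →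
      ∃ c CD C, Fm U R K ε ε1 C0 Ch c CD C (c0 / R) := by
  obtain ⟨R1, K1, c0', e1, c1, CD, hc0, he1, hc1, hCD, hd⟩ := hD Ch hCh
  set c := min c1 (1 / 10) with hc
  have hcp : 0 < c := lt_min hc1 (by norm_num)
  refine ⟨max R1 2, max K1 32, c0', min e1 (min (c / 3) (1 / 36)), hc0, by positivity,
    fun ℓ R K c0 ε ε1 C0 U hR hK h0 h1 h2 h3 h4 h5 hl hU => ?_⟩
  have hR0 : 2 ≤ R := (le_max_right _ _).trans hR
  have hm : 0 < c0 / R := by positivity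
  simp only [abs_of_pos hm] at hl
  obtain ⟨C, hC, hd⟩ := hd ℓ R _ ((le_max_left _ _).trans hR) (fun m => by
    rw [hl, div_mul_eq_mul_div]; gcongr) hm fun m => (hl m).ge
  have he1' : ε1 ≤ e1 := h2.trans (min_le_left _ _)
  refine ⟨c, CD, C, hU, ⟨ex_138, hR0, (le_max_right _ _).trans hK,
    h2.trans ((min_le_right _ _).trans (min_le_right _ _))⟩, h3, h4, h5, hCh, hcp, min_le_right _ _,
    by linarith [h2.trans ((min_le_right _ _).trans (min_le_left _ _))], hCD, hC, hm,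
    fun m => (hl m).ge, fun X X' a h' b J' a1 a2 a3 a4 a5 a6 a7 a8 => ?_⟩
  obtain ⟨k1, -, k3⟩ := hd K X X' a h' b J' ((le_max_left _ _).trans hK) a1 a2 a3 a4
    (a5.trans (min_le_left _ _)) a6 a7 (Cj.inB_mono a8 he1')
  exact ⟨k1, fun h J b1 b2 b3 => k3 h J b1 b2 (Cj.inB_mono b3 he1')⟩

end Crest.Agent.N250.Em

end
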